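import Vale.Agent.P155.SW877.Mass

/-!
# P155 (SW), block (4): sums of charges and potentials, the shift identity
-/

namespace Vale.Agent.P155.SW877

open MeasureTheory Set Filter Topology
open scoped ContDiff

open U Y877

theorem test_add {V : Set ℂ} {f g : ℂ → ℝ} (hf : IsTest V f) (hg : IsTest V g) :
    IsTest V (fun z => f z + g z) := by
  have h := test_sub hf (Uq.Gam.test_smul hg (-1))
  have e : (fun z => f z - -1 * g z) = fun z => f z + g z := by
    funext z
    ring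
  rwa [e] at h

theorem two {f : ℂ → ℝ} {z : ℂ} (hf : ContDiffAt ℝ ∞ f z) : ContDiffAt ℝ 2 f z :=
  hf.of_le (m := ((2 : ℕ∞) : WithTop ℕ∞)) (WithTop.coe_le_coe.2 le_top)

theorem nlap_add {f g : ℂ → ℝ} {z : ℂ} (hf : ContDiffAt ℝ ∞ f z) (hg : ContDiffAt ℝ ∞ g z) :
    nlap (fun w => f w + g w) z = nlap f z + nlap g z := by
  have h := nlap_lin (two hf) (two hg) 1
  simpa using h

theorem nlap_smul {f : ℂ → ℝ} {z : ℂ} (hf : ContDiffAt ℝ ∞ f z) (c : ℝ) :
    nlap (fun w => c * f w) z = c * nlap f z := by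
  have h := nlap_lin (two hf) (contDiffAt_const (c := (0 : ℝ))) c
  simpa [nlap_const] using h

theorem test_bound {V : Set ℂ} {f : ℂ → ℝ} (hf : IsTest V f) :
    ∃ B : ℝ, 0 < B ∧ ∀ z, |f z| ≤ B := by
  obtain ⟨M, hM⟩ := hf.1.continuous.bounded_above_of_compact_support hf.2.1
  refine ⟨max M 1, lt_max_of_lt_right one_pos, fun z => ?_⟩
  have := hM z
  rw [Real.norm_eq_abs] at this
  exact this.trans (le_max_left _ _)

theorem bdd_of {V : Set ℂ} {R : ℝ} (hV : V ⊆ Metric.ball 0 R) : Bornology.IsBounded V :=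
  Metric.isBounded_ball.subset hV

theorem green_add {V : Set ℂ} (hb : Bornology.IsBounded V) {f g : ℂ → ℝ} (hf : IsTest V f)
    (hg : IsTest V g) : greenEnergy V (fun z => f z + g z) ≤
      2 * greenEnergy V f + 2 * greenEnergy V g := by
  obtain ⟨B1, -, h1⟩ := test_bound hf
  obtain ⟨B2, -, h2⟩ := test_bound hg
  have e : (fun z => (f z + g z) - f z) = g := by
    funext z
    ring
  have h := NT733.green_young hb (φ := fun z => f z + g z) (ψ := f) (test_add hf hg).1.continuous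
    hf.1.continuous (B := max B1 B2) (fun z => (h1 z).trans (le_max_left _ _))
    (fun z => by
      rw [add_sub_cancel_left]
      exact (h2 z).trans (le_max_right _ _)) one_pos
  rw [e] at h
  linarith

theorem green_neg {V : Set ℂ} (hb : Bornology.IsBounded V) {f : ℂ → ℝ} (hf : IsTest V f) :
    greenEnergy V (fun z => -f z) ≤ greenEnergy V f := by
  have h := Uq.Gam.green_smul_le hb hf subset_rfl (t := -1) (by norm_num)
  have e : (fun z => -1 * f z) = fun z => -f z := by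
    funext z
    ring
  rw [e] at h
  linarith

theorem green_nonneg {V : Set ℂ} (hb : Bornology.IsBounded V) {f : ℂ → ℝ} (hf : IsTest V f) :
    0 ≤ greenEnergy V f := by
  obtain ⟨B, -, hB⟩ := test_bound hf
  have := dval_le hb hf.1.continuous.aestronglyMeasurable hB (isTest_zero V)
  simpa using this

/-- **the shift identity**, the half which is needed -/
theorem green_shift {V : Set ℂ} (hb : Bornology.IsBounded V) {φ ψ : ℂ → ℝ} (hφ : IsTest V φ)
    (hψ : IsTest V ψ) : greenEnergy V φ ≤ (2 * (∫ z, φ z * ψ z) - ∫ z, ‖fderiv ℝ ψ z‖ ^ 2) +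
      greenEnergy V (fun z => φ z - nlap ψ z) := by
  refine greenEnergy_le fun v hv => ?_
  have hr : IsTest V (fun z => φ z - nlap ψ z) := test_sub hφ (isTest_nlap hψ)
  obtain ⟨B, -, hB⟩ := test_bound hr
  have hw : IsTest V (fun z => v z - ψ z) := test_sub hv hψ
  have h1 := dval_le hb hr.1.continuous.aestronglyMeasurable hB hw
  have hw' : IsTest V (fun z => ψ z - v z) := test_sub hψ hv
  have h2 := energy_identity hψ.1 hψ.2.1 hw'.1 hw'.2.1
  have e0 : (fun w => ψ w - (ψ w - v w)) = v := by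
    funext w
    ring
  rw [e0] at h2
  have e1 : ∫ z, ‖fderiv ℝ (fun z => v z - ψ z) z‖ ^ 2 =
      ∫ z, ‖fderiv ℝ (fun z => ψ z - v z) z‖ ^ 2 := by
    congr 1
    funext z
    have : (fun z => v z - ψ z) = fun z => -(ψ z - v z) := by
      funext z
      ring
    rw [this, fderiv_fun_neg, norm_neg]
  have hφv : Integrable (fun z => φ z * v z) :=
    (hφ.1.continuous.mul hv.1.continuous).integrable_of_hasCompactSupport hφ.2.1.mul_right
  have hφψ : Integrable (fun z => φ z * ψ z) :=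
    (hφ.1.continuous.mul hψ.1.continuous).integrable_of_hasCompactSupport hφ.2.1.mul_right
  have hn : Integrable (fun z => nlap ψ z * (ψ z - v z)) :=
    ((isTest_nlap hψ).1.continuous.mul hw'.1.continuous).integrable_of_hasCompactSupport
      (isTest_nlap hψ).2.1.mul_right
  have e2 : ∫ z, (φ z - nlap ψ z) * (v z - ψ z) = (∫ z, φ z * v z) - (∫ z, φ z * ψ z) +
      ∫ z, nlap ψ z * (ψ z - v z) := by
    have hs : Integrable (fun z => φ z * v z - φ z * ψ z) := hφv.sub hφψ
    rw [← integral_sub hφv hφψ, ← integral_add hs hn]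
    congr 1
    funext z
    ring
  rw [e1, e2] at h1
  linarith

/-- **completing the square** -/
theorem green_square {V : Set ℂ} (hb : Bornology.IsBounded V) {φ ψ : ℂ → ℝ} (hφ : IsTest V φ)
    (hψ : IsTest V ψ) : greenEnergy V φ = (2 * (∫ z, φ z * ψ z) - ∫ z, ‖fderiv ℝ ψ z‖ ^ 2) +
      greenEnergy V (fun z => φ z - nlap ψ z) := by
  refine le_antisymm (green_shift hb hφ hψ) ?_
  have hr : IsTest V (fun z => φ z - nlap ψ z) := test_sub hφ (isTest_nlap hψ)
  have hm : IsTest V (fun z => -1 * ψ z) := Uq.Gam.test_smul hψ (-1)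
  have h1 := green_shift hb hr hm
  have e1 : (fun z => φ z - nlap ψ z - nlap (fun z => -1 * ψ z) z) = φ := by
    funext z
    rw [nlap_smul hψ.1.contDiffAt]
    ring
  have e2 : ∫ z, ‖fderiv ℝ (fun z => -1 * ψ z) z‖ ^ 2 = ∫ z, ‖fderiv ℝ ψ z‖ ^ 2 := by
    congr 1
    funext z
    have : (fun z => -1 * ψ z) = fun z => -ψ z := by
      funext z
      ring
    rw [this, fderiv_fun_neg, norm_neg]
  have hφψ : Integrable (fun z => φ z * ψ z) :=
    (hφ.1.continuous.mul hψ.1.continuous).integrable_of_hasCompactSupport hφ.2.1.mul_right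
  have hn : Integrable (fun z => nlap ψ z * ψ z) := test_nlap_int hψ
  have e3 : ∫ z, (φ z - nlap ψ z) * (-1 * ψ z) = (∫ z, nlap ψ z * ψ z) - ∫ z, φ z * ψ z := by
    rw [← integral_sub hn hφψ]
    congr 1
    funext z
    ring
  rw [e1, e2, e3] at h1
  have h2 := self_energy hψ.1 hψ.2.1
  linarith

/-! ### sums of squares -/

theorem SqLe.mono {U : ℕ → Set ℂ} {f : ℂ → ℝ} {a b : ℝ} (h : SqLe U f a) (hab : a ≤ b) :
    SqLe U f b := fun s => (h s).trans hab

theorem SqLe.neg {U : ℕ → Set ℂ} {f : ℂ → ℝ} {a : ℝ} (h : SqLe U f a) :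
    SqLe U (fun z => -f z) a := by
  intro s
  have := h s
  simpa [integral_neg] using this

theorem SqLe.add {U : ℕ → Set ℂ} {f g : ℂ → ℝ} {a b : ℝ} (h1 : SqLe U f a) (h2 : SqLe U g b)
    (hf : Integrable f) (hg : Integrable g) : SqLe U (fun z => f z + g z) (2 * a + 2 * b) := by
  intro s
  have a1 := h1 s
  have a2 := h2 s
  calc ∑ i ∈ s, (∫ z in U i, (f z + g z)) ^ 2
      ≤ ∑ i ∈ s, (2 * (∫ z in U i, f z) ^ 2 + 2 * (∫ z in U i, g z) ^ 2) := by
        refine Finset.sum_le_sum fun i _ => ?_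
        rw [integral_add hf.integrableOn hg.integrableOn]
        nlinarith [sq_nonneg ((∫ z in U i, f z) - ∫ z in U i, g z)]
    _ = 2 * (∑ i ∈ s, (∫ z in U i, f z) ^ 2) + 2 * ∑ i ∈ s, (∫ z in U i, g z) ^ 2 := by
        rw [Finset.sum_add_distrib, Finset.mul_sum, Finset.mul_sum]
    _ ≤ _ := by linarith

/-- a uniformly small charge -/
theorem sqLe_of_sup {V : Set ℂ} {R δ : ℝ} (hV : V ⊆ Metric.ball 0 R) {f : ℂ → ℝ}
    (hf : IsTest V f) (hfδ : ∀ z, |f z| ≤ δ) {U : ℕ → Set ℂ} (hm : ∀ i, MeasurableSet (U i))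
    (hd : Pairwise (Function.onFun Disjoint U)) :
    SqLe U f ((δ * volume.real (Metric.ball (0 : ℂ) R)) ^ 2) := by
  intro s
  set K := δ * volume.real (Metric.ball (0 : ℂ) R) with hK
  have hi : Integrable (fun z => |f z|) := (test_int hf).abs
  have h0 : ∀ A : Set ℂ, 0 ≤ ∫ z in A, |f z| := fun A => integral_nonneg fun z => abs_nonneg _
  have h1 : ∫ z, |f z| ≤ K := by
    have e : ∫ z in Metric.ball (0 : ℂ) R, |f z| = ∫ z, |f z| := by
      refine setIntegral_eq_integral_of_forall_compl_eq_zero fun z hz => ?_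
      rw [test_zero hf (fun h => hz (hV h)), abs_zero]
    rw [← e]
    have h2 := norm_setIntegral_le_of_norm_le_const (μ := volume) (s := Metric.ball (0 : ℂ) R)
      (f := fun z => |f z|) (C := δ) measure_ball_lt_top
      (fun z _ => by rw [Real.norm_eq_abs, abs_abs]; exact hfδ z)
    rw [Real.norm_eq_abs, abs_of_nonneg (h0 _)] at h2
    exact h2
  have h5 : ∑ i ∈ s, (∫ z in U i, |f z|) ≤ K := by
    have h6 : ∫ z in ⋃ i ∈ s, U i, |f z| = ∑ i ∈ s, ∫ z in U i, |f z| :=
      integral_biUnion_finset s (fun i _ => hm i)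
        (fun i _ j _ hij => hd hij) (fun i _ => hi.integrableOn)
    rw [← h6]
    exact (setIntegral_le_integral hi (Eventually.of_forall fun z => abs_nonneg _)).trans h1
  calc ∑ i ∈ s, (∫ z in U i, f z) ^ 2 ≤ ∑ i ∈ s, (∫ z in U i, |f z|) ^ 2 := by
        refine Finset.sum_le_sum fun i _ => ?_
        rw [sq_le_sq, abs_of_nonneg (h0 (U i))]
        exact abs_integral_le_integral_abs
    _ ≤ ∑ i ∈ s, K * (∫ z in U i, |f z|) := by
        refine Finset.sum_le_sum fun i hi => ?_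
        rw [sq]
        refine mul_le_mul_of_nonneg_right ?_ (h0 _)
        exact (Finset.single_le_sum (f := fun i => ∫ z in U i, |f z|) (fun i _ => h0 _) hi).trans h5
    _ = K * ∑ i ∈ s, (∫ z in U i, |f z|) := by rw [Finset.mul_sum]
    _ ≤ K ^ 2 := by
        rw [sq]
        exact mul_le_mul_of_nonneg_left h5 ((integral_nonneg fun z => abs_nonneg _).trans h1)

/-! ### nonnegative potentials -/

/-- a nonnegative potential of `φ` on `V` which vanishes at the boundary -/
structure Pt0 (V : Set ℂ) (φ u : ℂ → ℝ) : Prop where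
  sm : ∀ z ∈ V, ContDiffAt ℝ ∞ u z
  nng : ∀ z ∈ V, 0 ≤ u z
  lim : ∀ δ : ℝ, 0 < δ → ∃ K, IsCompact K ∧ K ⊆ V ∧ ∀ z ∈ V, δ ≤ u z → z ∈ K
  test : IsTest V φ
  nn : ∀ z, 0 ≤ φ z
  nl : ∀ z ∈ V, nlap u z = φ z

theorem Pt0.pt {V : Set ℂ} {φ u : ℂ → ℝ} (ho : IsOpen V) (h : Pt0 V φ u)
    (hp : ∀ z ∈ V, 0 < u z) : Pt V φ u := ⟨ho, h.sm, hp, h.lim, h.test, h.nn, h.nl⟩

theorem pt0_zero (V : Set ℂ) : Pt0 V (fun _ => 0) (fun _ => 0) where
  sm := fun _ _ => contDiffAt_const
  nng := fun _ _ => le_rfl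
  lim := fun δ hδ => ⟨∅, isCompact_empty, empty_subset _, fun z _ h => (hδ.not_ge h).elim⟩
  test := isTest_zero V
  nn := fun _ => le_rfl
  nl := fun z _ => nlap_const 0 z

theorem Pt0.add {V : Set ℂ} {φ u χ v : ℂ → ℝ} (h1 : Pt0 V φ u) (h2 : Pt0 V χ v) :
    Pt0 V (fun z => φ z + χ z) (fun z => u z + v z) where
  sm := fun z hz => (h1.sm z hz).add (h2.sm z hz)
  nng := fun z hz => add_nonneg (h1.nng z hz) (h2.nng z hz)
  lim := by
    intro δ hδ
    obtain ⟨K1, a1, a2, a3⟩ := h1.lim (δ / 2) (half_pos hδ)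
    obtain ⟨K2, b1, b2, b3⟩ := h2.lim (δ / 2) (half_pos hδ)
    refine ⟨K1 ∪ K2, a1.union b1, union_subset a2 b2, fun z hz hd => ?_⟩
    rcases le_total (δ / 2) (u z) with h | h
    · exact Or.inl (a3 z hz h)
    · exact Or.inr (b3 z hz (by linarith))
  test := test_add h1.test h2.test
  nn := fun z => add_nonneg (h1.nn z) (h2.nn z)
  nl := fun z hz => by
    rw [nlap_add (h1.sm z hz) (h2.sm z hz), h1.nl z hz, h2.nl z hz]

theorem Pt0.smul {V : Set ℂ} {φ u : ℂ → ℝ} (h : Pt0 V φ u) {c : ℝ} (hc : 0 ≤ c) :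
    Pt0 V (fun z => c * φ z) (fun z => c * u z) where
  sm := fun z hz => contDiffAt_const.mul (h.sm z hz)
  nng := fun z hz => mul_nonneg hc (h.nng z hz)
  lim := by
    intro δ hδ
    rcases eq_or_lt_of_le hc with h0 | h0
    · refine ⟨∅, isCompact_empty, empty_subset _, fun z _ hd => ?_⟩
      rw [← h0, zero_mul] at hd
      exact (hδ.not_ge hd).elim
    · obtain ⟨K1, a1, a2, a3⟩ := h.lim (δ / c) (by positivity)
      refine ⟨K1, a1, a2, fun z hz hd => a3 z hz ?_⟩
      rw [div_le_iff₀ h0]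
      linarith
  test := Uq.Gam.test_smul h.test c
  nn := fun z => mul_nonneg hc (h.nn z)
  nl := fun z hz => by
    rw [nlap_smul (h.sm z hz), h.nl z hz]

theorem Pt0.sum {V : Set ℂ} {ι : Type*} (s : Finset ι) {φ u : ι → ℂ → ℝ}
    (h : ∀ i ∈ s, Pt0 V (φ i) (u i)) :
    Pt0 V (fun z => ∑ i ∈ s, φ i z) (fun z => ∑ i ∈ s, u i z) := by
  classical
  induction s using Finset.induction_on with
  | empty => simpa using pt0_zero V
  | insert i s hi ih =>
    have h1 := (h i (Finset.mem_insert_self _ _)).add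
      (ih fun j hj => h j (Finset.mem_insert_of_mem hj))
    have e1 : (fun z => ∑ j ∈ insert i s, φ j z) = fun z => φ i z + ∑ j ∈ s, φ j z := by
      funext z
      rw [Finset.sum_insert hi]
    have e2 : (fun z => ∑ j ∈ insert i s, u j z) = fun z => u i z + ∑ j ∈ s, u j z := by
      funext z
      rw [Finset.sum_insert hi]
    rw [e1, e2]
    exact h1

open Classical in
/-- extension by zero from a relatively clopen part -/
theorem Pt.ext {V₁ V : Set ℂ} {φ u : ℂ → ℝ} (h : Pt V₁ φ u) (hs : V₁ ⊆ V)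
    (ho : IsOpen (V \ V₁)) : Pt0 V φ (fun z => if z ∈ V₁ then u z else 0) := by
  have e1 : ∀ z ∈ V₁, (fun z => if z ∈ V₁ then u z else 0) =ᶠ[𝓝 z] u := fun z hz => by
    filter_upwards [h.ho.mem_nhds hz] with w hw
    exact if_pos hw
  have e0 : ∀ z ∈ V, z ∉ V₁ → (fun z => if z ∈ V₁ then u z else 0) =ᶠ[𝓝 z] fun _ => 0 :=
    fun z hz hz1 => by
    filter_upwards [ho.mem_nhds ⟨hz, hz1⟩] with w hw
    exact if_neg hw.2
  refine ⟨fun z hz => ?_, fun z _ => ?_, fun δ hδ => ?_, ?_, h.nn, fun z hz => ?_⟩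
  · by_cases hz1 : z ∈ V₁
    · exact (h.sm z hz1).congr_of_eventuallyEq (e1 z hz1)
    · exact contDiffAt_const.congr_of_eventuallyEq (e0 z hz hz1)
  · show 0 ≤ if z ∈ V₁ then u z else 0
    split_ifs with hz1
    · exact (h.pos z hz1).le
    · exact le_rfl
  · obtain ⟨K, a1, a2, a3⟩ := h.lim δ hδ
    refine ⟨K, a1, a2.trans hs, fun z _ hd => ?_⟩
    by_cases hz1 : z ∈ V₁
    · simp only [if_pos hz1] at hd
      exact a3 z hz1 hd
    · simp only [if_neg hz1] at hd
      exact (hδ.not_ge hd).elim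
  · exact ⟨h.test.1, h.test.2.1, h.test.2.2.trans hs⟩
  · by_cases hz1 : z ∈ V₁
    · rw [nlap_congr (e1 z hz1), h.nl z hz1]
    · rw [nlap_congr (e0 z hz hz1), nlap_const, test_zero h.test hz1]

/-! ### restriction of the Green energy to a relatively clopen part -/

open Classical in
theorem green_clopen {V W : Set ℂ} (hb : Bornology.IsBounded V) (ho : IsOpen V)
    (hoW : IsOpen (W \ V)) {g : ℂ → ℝ} (hg : IsTest V g) :
    greenEnergy W g ≤ greenEnergy V g := by
  refine greenEnergy_le fun w hw => ?_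
  set w' : ℂ → ℝ := fun z => if z ∈ V then w z else 0 with hw'
  have e1 : ∀ z ∈ V, w' =ᶠ[𝓝 z] w := fun z hz => by
    filter_upwards [ho.mem_nhds hz] with x hx
    exact if_pos hx
  have hK : IsCompact (tsupport w ∩ (W \ V)ᶜ) := hw.2.1.isCompact.inter_right hoW.isClosed_compl
  have hKV : tsupport w ∩ (W \ V)ᶜ ⊆ V := by
    rintro z ⟨h1, h2⟩
    by_contra h3
    exact h2 ⟨hw.2.2 h1, h3⟩
  have ht : IsTest V w' := by
    refine CI.isTest_of (Ω := V) hK hKV subset_rfl (fun z hz => ?_) (fun z hz => ?_)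
    · exact hw.1.contDiffAt.congr_of_eventuallyEq (e1 z hz)
    · by_cases hzV : z ∈ V
      · have h2 : z ∉ tsupport w := fun h => hz ⟨h, fun h' => h'.2 hzV⟩
        show (if z ∈ V then w z else 0) = 0
        rw [if_pos hzV]
        exact image_eq_zero_of_notMem_tsupport h2
      · exact if_neg hzV
  obtain ⟨B, -, hB⟩ := test_bound hg
  have h1 := dval_le hb hg.1.continuous.aestronglyMeasurable hB ht
  have h2 : ∫ z, g z * w z = ∫ z, g z * w' z := by
    congr 1
    funext z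
    by_cases hz : z ∈ V
    · have : w' z = w z := if_pos hz
      rw [this]
    · rw [test_zero hg hz, zero_mul, zero_mul]
  have h3 : ∫ z, ‖fderiv ℝ w' z‖ ^ 2 ≤ ∫ z, ‖fderiv ℝ w z‖ ^ 2 := by
    refine integral_mono (test_sq ht) (test_sq hw) fun z => ?_
    show ‖fderiv ℝ w' z‖ ^ 2 ≤ ‖fderiv ℝ w z‖ ^ 2
    by_cases hz : z ∈ V
    · rw [(e1 z hz).fderiv_eq]
    · have : z ∉ tsupport w' := fun h => hz (ht.2.2 h)
      rw [fderiv_of_notMem_tsupport (𝕜 := ℝ) this, norm_zero, zero_pow two_ne_zero]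
      exact sq_nonneg _
  rw [h2]
  linarith

end Vale.Agent.P155.SW877
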