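import Vale.Agent.P155.SW877.Zero
import Vale.Agent.P155.SW733.K1
import Vale.Agent.P155.SW801.Geo

/-!
# P155 (SW), block (6a): the zero level at a fixed value of `KK`
-/

namespace Vale.Agent.P155.SW877

open MeasureTheory Set Filter Topology TopologicalSpace Vale.Agent.P155.Q1 Vale.Agent.P155.Uq
  Vale.Agent.P155.UK Vale.Agent.P155.SWR Vale.Agent.P155.SW733
open scoped ContDiff

open Vale.Agent.P155.U Vale.Agent.P155.Y877

theorem pr_bound {Ω : Set ℂ} {f : Fld Ω} {χ : ℂ → ℝ} (hχ : IsTest Ω χ)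
    (hf : ∀ᵐ z ∂(volume.restrict Ω : Measure ℂ), |f z| ≤ 1) : |pr f χ| ≤ ∫ z, |χ z| := by
  have hi : Integrable (fun z => |χ z|) := (test_int hχ).abs
  unfold pr
  have h1 : ‖∫ z in Ω, f z * χ z‖ ≤ ∫ z in Ω, |χ z| := by
    refine norm_integral_le_of_norm_le hi.integrableOn ?_
    filter_upwards [hf] with z hz
    rw [norm_mul, Real.norm_eq_abs, Real.norm_eq_abs]
    exact mul_le_of_le_one_left (abs_nonneg _) hz
  rw [Real.norm_eq_abs] at h1
  exact h1.trans (setIntegral_le_integral hi (Eventually.of_forall fun z => abs_nonneg _))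

/-- **(K4a)** -/
theorem zero {Ω b : Set ℂ} (ho : IsOpen Ω) (hb : Bornology.IsBounded Ω) (hbc : IsClosed b)
    (hbΩ : Ωᶜ ⊆ b) (hsc : ∀ z ∈ bᶜ, SimplyConnectedSpace (connectedComponentIn bᶜ z))
    {κ : Measure (Sp Ω)} [IsProbabilityMeasure κ]
    (h1 : ∀ᵐ s ∂κ, Path Ω s ∧ frontier bᶜ ⊆ ((s 1).1 : Set ℂ) ∧
      ∀ U, IsHole Ω (s 1).1 U → (U ∩ bᶜ).Nonempty → closure U ⊆ bᶜ)
    (h2 : ∀ χ ψ, IsTest bᶜ χ → IsTest bᶜ ψ →
      ∫ s, wt (pr (s 1).2 (fun w => χ w - lapC ψ w))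
        (greenEnergy (Ω \ (s 1).1) (fun w => χ w - lapC ψ w)) ∂κ =
      Complex.exp (-(∫ w, ψ w * χ w) - dir2 ψ / 2) *
        ∫ s, wt (pr (s 1).2 χ) (greenEnergy (Ω \ (s 1).1) χ) ∂κ)
    (h3 : ∀ g, IsTest bᶜ g → ∫ s, (pr (s 1).2 g) ^ 2 ∂κ ≤ ∫ s, SS Ω g (s 1).1 ∂κ) :
    ∀ φ, IsTest bᶜ φ → ∫ s, wt (pr (s 1).2 φ) (greenEnergy (Ω \ (s 1).1) φ) ∂κ =
      Complex.exp (-greenEnergy bᶜ φ / 2) := by
  classical
  have hW : IsOpen bᶜ := hbc.isOpen_compl
  have hWΩ : bᶜ ⊆ Ω := fun z hz => by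
    by_contra h
    exact hz (hbΩ h)
  have hWb : Bornology.IsBounded bᶜ := hb.subset hWΩ
  have hT : ∀ {χ : ℂ → ℝ}, IsTest bᶜ χ → IsTest Ω χ := fun h => IsTest_mono hWΩ h
  set U : Sp Ω → ℕ → Set ℂ := fun s i =>
    if (hol Ω (s 1).1 i ∩ bᶜ).Nonempty then hol Ω (s 1).1 i else ∅ with hU
  have hUi : ∀ χ, IsTest bᶜ χ → ∀ s i, ∫ z in U s i, χ z = ∫ z in hol Ω (s 1).1 i, χ z := by
    intro χ hχ s i
    rw [hU]
    simp only
    split_ifs with h
    · rfl
    · rw [setIntegral_empty]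
      symm
      refine setIntegral_eq_zero_of_forall_eq_zero fun z hz => ?_
      refine test_zero hχ fun hzb => h ⟨z, hz, hzb⟩
  have hSS : ∀ χ, IsTest bᶜ χ → ∀ s : Sp Ω,
      ∑' i, (∫ z in U s i, χ z) ^ 2 = SS Ω χ (s 1).1 := by
    intro χ hχ s
    unfold SS
    simp_rw [hUi χ hχ s]
  have hfr : ∀ s : Sp Ω, Path Ω s → frontier Ω ⊆ ((s 1).1 : Set ℂ) := by
    intro s hs
    rw [← hs.zero.1]
    exact (hs.mono 0).1
  have hm1 : Measurable (fun s : Sp Ω => (s 1).1) :=
    measurable_fst.comp (measurable_pi_apply 1)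
  refine zero_level hW hWb hsc κ (fun χ s => pr (s 1).2 χ)
    (fun χ s => greenEnergy (Ω \ (s 1).1) χ) U ?_ ?_ ?_ ?_ ?_ ?_ h2
  · exact fun χ hχ => (Gam.meas_pr (hT hχ) 1).aestronglyMeasurable
  · exact fun χ hχ => ((Vale.Agent.P155.U.measurable_green hb (hT hχ)).comp hm1).aestronglyMeasurable
  · intro χ hχ
    filter_upwards [h1] with s hs
    constructor
    · obtain ⟨B, -, hB⟩ := test_bound hχ
      have := dval_le (hb.subset Set.sdiff_subset) hχ.1.continuous.aestronglyMeasurable hB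
        (isTest_zero (Ω \ ((s 1).1 : Set ℂ)))
      simpa using this
    · refine green_clopen hWb hW ?_ hχ
      have e : (Ω \ ((s 1).1 : Set ℂ)) \ bᶜ = (Ω \ ((s 1).1 : Set ℂ)) ∩ interior b := by
        ext z
        constructor
        · rintro ⟨h4, h5⟩
          refine ⟨h4, ?_⟩
          have h6 : z ∈ b := not_not.1 h5
          by_contra h7
          apply h4.2
          apply hs.2.1
          rw [frontier_compl, frontier, hbc.closure_eq]
          exact ⟨h6, h7⟩
        · rintro ⟨h4, h5⟩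
          exact ⟨h4, not_not.2 (interior_subset h5)⟩
      rw [e]
      exact (ho.sdiff (s 1).1.isCompact.isClosed).inter isOpen_interior
  · filter_upwards [h1] with s hs
    have hf := hfr s hs.1
    have hsub : ∀ i, U s i ⊆ hol Ω (s 1).1 i := by
      intro i
      rw [hU]
      simp only
      split_ifs
      · exact subset_rfl
      · exact empty_subset _
    refine ⟨fun i => ?_, fun i j hij => ?_, fun i => ?_, fun ε hε => ?_⟩
    · rw [hU]
      simp only
      split_ifs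
      · exact isOpen_hol ho hf i
      · exact isOpen_empty
    · exact (hol_disj Ω (s 1).1 hij).mono (hsub i) (hsub j)
    · rw [hU]
      simp only
      split_ifs with h
      · rcases hol_isHole ho hf i with h4 | h4
        · rw [h4, empty_inter] at h
          exact absurd h not_nonempty_empty
        · exact hs.2.2 _ h4 h
      · rw [closure_empty]
        exact empty_subset _
    · have hfin := hs.1.nice.fin ε hε
      have hpos : ∀ i, ε < Metric.diam (U s i) → (hol Ω (s 1).1 i).Nonempty ∧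
          U s i = hol Ω (s 1).1 i := by
        intro i hi
        have h4 : U s i = hol Ω (s 1).1 i := by
          by_contra h5
          rw [hU] at h5 hi
          simp only at h5 hi
          split_ifs at h5 hi with h6
          · exact h5 rfl
          · rw [Metric.diam_empty] at hi
            linarith
        refine ⟨?_, h4⟩
        rw [nonempty_iff_ne_empty]
        intro h5
        rw [h4, h5, Metric.diam_empty] at hi
        linarith
      have hinj : InjOn (hol Ω (s 1).1) {i | ε < Metric.diam (U s i)} := by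
        intro i hi j hj hij
        by_contra hne
        obtain ⟨z, hz⟩ := (hpos i hi).1
        exact (Set.disjoint_left.1 (hol_disj Ω (s 1).1 hne)) hz (hij ▸ hz)
      refine Finite.of_finite_image (hfin.subset ?_) hinj
      rintro _ ⟨i, hi, rfl⟩
      obtain ⟨h5, h6⟩ := hpos i hi
      refine ⟨?_, by rw [← h6]; exact hi⟩
      rcases hol_isHole ho hf i with h4 | h4
      · rw [h4] at h5
        exact absurd h5 not_nonempty_empty
      · exact h4
  · intro χ hχ
    simp_rw [hSS χ hχ]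
    exact ((meas_SS ho (hT hχ)).comp hm1).aestronglyMeasurable
  · intro χ hχ
    refine ⟨?_, ?_⟩
    · refine Integrable.of_bound (C := (∫ z, |χ z|) ^ 2)
        ((Gam.meas_pr (hT hχ) 1).pow_const 2).aestronglyMeasurable ?_
      filter_upwards [h1] with s hs
      have h4 := pr_bound (hT hχ) (f := (s 1).2) (by
        have := hs.1.bdd 1
        simpa using this)
      rw [Real.norm_of_nonneg (sq_nonneg _), ← sq_abs]
      gcongr
    · simp_rw [hSS χ hχ]
      exact h3 χ hχ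

/-- **(K4d)** the limit at a fixed value of `KK` -/
theorem limit_y {Ω : Set ℂ} (ho : IsOpen Ω) (hb : Bornology.IsBounded Ω) {K : Set ℂ}
    (hK : IsClosed K) (hKc : IsConnected K) (hΩK : Ωᶜ ⊆ K) {κ : Measure (Sp Ω)}
    [IsProbabilityMeasure κ] {b : Set ℂ}
    (hs : ∀ᵐ s ∂κ, KK Ω K (s 1).1 = b ∧ Path Ω s)
    (h2 : ∀ χ, IsTest Ω χ → ∀ β : NonemptyCompacts ℂ → ℝ, BM β →
      ∫ s, β (s 1).1 * (pr (s 1).2 χ) ^ 2 ∂κ = ∫ s, β (s 1).1 * SS Ω χ (s 1).1 ∂κ)
    (hL : ∀ φ ψ, IsTest Ω φ → IsTest bᶜ ψ →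
      ∫ s, wt (pr (s 1).2 φ) (greenEnergy (Ω \ (s 1).1) φ) ∂κ =
        Complex.exp (-(∫ w, ψ w * (φ w + lapC ψ w)) - dir2 ψ / 2) *
          ∫ s, wt (pr (s 1).2 (fun w => φ w + lapC ψ w))
            (greenEnergy (Ω \ (s 1).1) (fun w => φ w + lapC ψ w)) ∂κ) :
    ∀ φ, IsTest bᶜ φ → ∫ s, wt (pr (s 1).2 φ) (greenEnergy (Ω \ (s 1).1) φ) ∂κ =
      Complex.exp (-greenEnergy bᶜ φ / 2) := by
  obtain ⟨s₀, hs₀, hs₀'⟩ := hs.exists
  have hg := geo ho hb hK hKc hΩK hs₀'
  rw [hs₀] at hg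
  have hWΩ : bᶜ ⊆ Ω := fun z hz => by
    by_contra h
    exact hz (hg.2.1 h)
  refine zero ho hb hg.1 hg.2.1 hg.2.2.1 ?_ ?_ ?_
  · filter_upwards [hs] with s hs
    have h := geo ho hb hK hKc hΩK hs.2
    rw [hs.1] at h
    exact ⟨hs.2, h.2.2.2.1, h.2.2.2.2⟩
  · intro χ ψ hχ hψ
    have h5 : IsTest bᶜ (fun w => χ w - lapC ψ w) := by
      have h6 := test_add hχ (isTest_nlap hψ)
      have e : (fun w => χ w - lapC ψ w) = fun z => χ z + nlap ψ z := by
        funext z
        rw [lapC_eq]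
        ring
      rw [e]
      exact h6
    have h7 := hL _ ψ (IsTest_mono hWΩ h5) hψ
    simp only [sub_add_cancel] at h7
    exact h7
  · intro g hg'
    have h5 := h2 g (IsTest_mono hWΩ hg') (fun _ => 1) ⟨measurable_const, 1, fun _ => by simp⟩
    simp only [one_mul] at h5
    exact h5.le

end Vale.Agent.P155.SW877
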