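import Vale.Agent.P155.SW877.Tr

/-!
# P155 (SW), block (4): the mass of `g_δ` on small sets
-/

namespace Vale.Agent.P155.SW877

open MeasureTheory Set Filter Topology
open scoped ContDiff

open U Y877

theorem dd_comp' {u : ℂ → ℝ} {z : ℂ} (hu : ContDiffAt ℝ ∞ u z) {F F1 F2 : ℝ → ℝ}
    (h1 : ∀ w, HasDerivAt F (F1 (u w)) (u w)) (h2 : HasDerivAt F1 (F2 (u z)) (u z)) (e : ℂ) :
    fderiv ℝ (fun w => fderiv ℝ (fun x => F (u x)) w e) z e =
      F2 (u z) * fderiv ℝ u z e ^ 2 + F1 (u z) * fderiv ℝ (fun w => fderiv ℝ u w e) z e := by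
  have hev : ∀ᶠ w in 𝓝 z, DifferentiableAt ℝ u w := by
    filter_upwards [(hu.of_le (m := 1) (by norm_num)).eventually (by simp)] with w hw
    exact hw.differentiableAt (by norm_num)
  have e1 : (fun w => fderiv ℝ (fun x => F (u x)) w e) =ᶠ[𝓝 z]
      fun w => F1 (u w) * fderiv ℝ u w e := by
    filter_upwards [hev] with w hw
    have h3 := (h1 w).comp_hasFDerivAt w hw.hasFDerivAt
    have h4 : HasFDerivAt (fun x => F (u x)) (F1 (u w) • fderiv ℝ u w) w := h3
    rw [h4.fderiv]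
    rfl
  have h5 : DifferentiableAt ℝ (fun w => fderiv ℝ u w e) z :=
    (((hu.of_le (m := ((2 : ℕ∞) : WithTop ℕ∞)) (WithTop.coe_le_coe.2 le_top)).fderiv_right (m := 1)
      (by norm_num)).differentiableAt (by norm_num)).clm_apply (differentiableAt_const e)
  have h6 : HasFDerivAt (fun w => F1 (u w)) (F2 (u z) • fderiv ℝ u z) z :=
    h2.comp_hasFDerivAt z (hev.self_of_nhds).hasFDerivAt
  rw [e1.fderiv_eq, (h6.fun_mul h5.hasFDerivAt).fderiv]
  simp only [add_apply, smul_apply, smul_eq_mul]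
  ring

theorem nlap_comp' {u : ℂ → ℝ} {z : ℂ} (hu : ContDiffAt ℝ ∞ u z) {F F1 F2 : ℝ → ℝ}
    (h1 : ∀ w, HasDerivAt F (F1 (u w)) (u w)) (h2 : HasDerivAt F1 (F2 (u z)) (u z)) :
    nlap (fun x => F (u x)) z = F1 (u z) * nlap u z - F2 (u z) * ‖fderiv ℝ u z‖ ^ 2 := by
  unfold nlap
  rw [dd_comp' hu h1 h2, dd_comp' hu h1 h2, norm_sq_clm]
  ring

/-- the smooth superharmonic function `c - log(‖x - y‖² + r²)` -/
noncomputable def Lf (c : ℝ) (y : ℂ) (r : ℝ) (x : ℂ) : ℝ := c - Real.log (‖x - y‖ ^ 2 + r ^ 2)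

theorem Lf_contDiff (c : ℝ) (y : ℂ) {r : ℝ} (hr : 0 < r) : ContDiff ℝ ∞ (Lf c y r) := by
  unfold Lf
  refine contDiff_const.sub (ContDiff.log ((sq_contDiff y).add contDiff_const) fun x => ?_)
  positivity

theorem Lf_super (c : ℝ) (y : ℂ) {r : ℝ} (hr : 0 < r) (x : ℂ) : 0 ≤ nlap (Lf c y r) x := by
  have h1 : ∀ w : ℂ, HasDerivAt (fun t => c - Real.log (t + r ^ 2))
      (-(‖w - y‖ ^ 2 + r ^ 2)⁻¹) (‖w - y‖ ^ 2) := by
    intro w
    have h2 : HasDerivAt (fun t : ℝ => t + r ^ 2) 1 (‖w - y‖ ^ 2) :=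
      (hasDerivAt_id _).add_const _
    have h3 := (h2.log (by positivity)).const_sub c
    refine h3.congr_deriv ?_
    rw [one_div]
  have h4 : HasDerivAt (fun t : ℝ => -(t + r ^ 2)⁻¹) (((‖x - y‖ ^ 2 + r ^ 2) ^ 2)⁻¹)
      (‖x - y‖ ^ 2) := by
    have h2 : HasDerivAt (fun t : ℝ => t + r ^ 2) 1 (‖x - y‖ ^ 2) :=
      (hasDerivAt_id _).add_const _
    have h3 := (h2.fun_inv (by positivity)).fun_neg
    refine h3.congr_deriv ?_
    rw [neg_div, neg_neg, one_div]
  have e := nlap_comp' (u := fun w : ℂ => ‖w - y‖ ^ 2) (z := x) (sq_contDiff y).contDiffAt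
    (F := fun t => c - Real.log (t + r ^ 2)) (F1 := fun t => -(t + r ^ 2)⁻¹)
    (F2 := fun t => ((t + r ^ 2) ^ 2)⁻¹) h1 h4
  have e2 : nlap (Lf c y r) x = nlap (fun w => c - Real.log (‖w - y‖ ^ 2 + r ^ 2)) x := rfl
  rw [e2, e, nlap_sq, norm_fderiv_sq]
  have h5 : (0 : ℝ) < ‖x - y‖ ^ 2 + r ^ 2 := by positivity
  have h6 : -(‖x - y‖ ^ 2 + r ^ 2)⁻¹ * -4 - ((‖x - y‖ ^ 2 + r ^ 2) ^ 2)⁻¹ * (4 * ‖x - y‖ ^ 2) =
      4 * r ^ 2 / (‖x - y‖ ^ 2 + r ^ 2) ^ 2 := by
    field_simp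
    ring
  rw [h6]
  positivity

section
variable {V : Set ℂ} {φ u : ℂ → ℝ} (h : Pt V φ u) {δ : ℝ} (hδ : 0 < δ)
include h hδ

/-- the mass of a small set -/
theorem Pt.mass {R d r : ℝ} (hV : V ⊆ Metric.ball 0 R) (hr : 0 < r) (hrR : r ≤ R) (hd : 0 < d)
    {y : ℂ} (hy : y ∈ V) (hyd : ∀ x ∈ tsupport φ, d ≤ ‖x - y‖) {A : Set ℂ}
    (hAm : MeasurableSet A) (hA : A ⊆ Metric.closedBall y r) :
    (∫ z in A, gr V φ u δ z) * (Real.log (9 * R ^ 2) - Real.log (2 * r ^ 2)) ≤
      (Real.log (9 * R ^ 2) - Real.log (d ^ 2)) * ∫ z, φ z := by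
  have hg := h.gr_test hδ
  set L := Lf (Real.log (9 * R ^ 2)) y r with hL
  have hLs : ContDiff ℝ ∞ L := Lf_contDiff _ y hr
  have h1 : ∫ z, gr V φ u δ z * L z ≤ ∫ z, φ z * L z :=
    h.gr_super hδ hLs (Lf_super _ y hr)
  have i1 := h.int_mul_cont hδ hLs.continuous hg
  have i2 := h.int_mul_cont hδ hLs.continuous h.test
  have hR : 0 < R := lt_of_lt_of_le hr hrR
  have hy1 : ‖y‖ < R := mem_ball_zero_iff.1 (hV hy)
  -- positivity on `V`
  have hLV : ∀ z ∈ V, 0 ≤ L z := by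
    intro z hz
    have hz1 : ‖z‖ < R := mem_ball_zero_iff.1 (hV hz)
    have h2 : ‖z - y‖ ≤ 2 * R := (norm_sub_le z y).trans (by linarith)
    have h3 : ‖z - y‖ ^ 2 + r ^ 2 ≤ 9 * R ^ 2 := by
      have h4 : ‖z - y‖ ^ 2 ≤ (2 * R) ^ 2 := by gcongr
      have h5 : r ^ 2 ≤ R ^ 2 := by gcongr
      nlinarith
    have h4 := Real.log_le_log (by positivity : (0 : ℝ) < ‖z - y‖ ^ 2 + r ^ 2) h3
    show 0 ≤ Real.log (9 * R ^ 2) - Real.log (‖z - y‖ ^ 2 + r ^ 2)
    linarith
  have h0 : ∀ z, 0 ≤ gr V φ u δ z * L z := by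
    intro z
    by_cases hz : z ∈ V
    · exact mul_nonneg (h.gr_nonneg hδ z) (hLV z hz)
    · rw [h.gr_out hδ hz, zero_mul]
  have h2 : ∫ z in A, gr V φ u δ z * L z ≤ ∫ z, gr V φ u δ z * L z :=
    setIntegral_le_integral i1 (Eventually.of_forall h0)
  have h3 : (∫ z in A, gr V φ u δ z) * (Real.log (9 * R ^ 2) - Real.log (2 * r ^ 2)) ≤
      ∫ z in A, gr V φ u δ z * L z := by
    rw [← integral_mul_const]
    refine setIntegral_mono_on ((test_int hg).integrableOn.mul_const _) i1.integrableOn hAm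
      fun z hz => ?_
    refine mul_le_mul_of_nonneg_left ?_ (h.gr_nonneg hδ z)
    have h4 : ‖z - y‖ ≤ r := by
      have := hA hz
      rwa [Metric.mem_closedBall, Complex.dist_eq] at this
    have h5 : ‖z - y‖ ^ 2 + r ^ 2 ≤ 2 * r ^ 2 := by
      have : ‖z - y‖ ^ 2 ≤ r ^ 2 := by gcongr
      linarith
    have h6 := Real.log_le_log (by positivity : (0 : ℝ) < ‖z - y‖ ^ 2 + r ^ 2) h5
    show Real.log (9 * R ^ 2) - Real.log (2 * r ^ 2) ≤
      Real.log (9 * R ^ 2) - Real.log (‖z - y‖ ^ 2 + r ^ 2)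
    linarith
  have h4 : ∫ z, φ z * L z ≤ (Real.log (9 * R ^ 2) - Real.log (d ^ 2)) * ∫ z, φ z := by
    rw [← integral_const_mul]
    refine integral_mono i2 ((test_int h.test).const_mul _) fun z => ?_
    show φ z * L z ≤ (Real.log (9 * R ^ 2) - Real.log (d ^ 2)) * φ z
    by_cases hz : z ∈ tsupport φ
    · rw [mul_comm]
      refine mul_le_mul_of_nonneg_right ?_ (h.nn z)
      have h5 := hyd z hz
      have h6 : d ^ 2 ≤ ‖z - y‖ ^ 2 + r ^ 2 := by
        have : d ^ 2 ≤ ‖z - y‖ ^ 2 := by gcongr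
        nlinarith [sq_nonneg r]
      have h7 := Real.log_le_log (by positivity : (0 : ℝ) < d ^ 2) h6
      show Real.log (9 * R ^ 2) - Real.log (‖z - y‖ ^ 2 + r ^ 2) ≤
        Real.log (9 * R ^ 2) - Real.log (d ^ 2)
      linarith
    · rw [image_eq_zero_of_notMem_tsupport hz, zero_mul, mul_zero]
  linarith

end

/-- near the boundary one is far from `K` -/
theorem far {V K : Set ℂ} (ho : IsOpen V) (hK : IsCompact K) (hKV : K ⊆ V) {us : ℂ → ℝ}
    (hc : ∀ z ∈ V, ContinuousAt us z) (hp : ∀ z ∈ V, 0 < us z) :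
    ∃ d > 0, ∃ δ₁ > 0, ∀ y ∈ V, us y ≤ 2 * δ₁ → ∀ x ∈ K, d ≤ ‖x - y‖ := by
  obtain ⟨d, hd, hdV⟩ := hK.exists_cthickening_subset_open ho hKV
  have hK' : IsCompact (Metric.cthickening d K) := hK.cthickening
  rcases (Metric.cthickening d K).eq_empty_or_nonempty with he | hne
  · refine ⟨d, hd, 1, one_pos, fun y _ _ x hx => ?_⟩
    have : x ∈ Metric.cthickening d K := Metric.self_subset_cthickening _ hx
    rw [he] at this
    exact this.elim
  · obtain ⟨z₀, hz₀, hmin⟩ := hK'.exists_isMinOn hne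
      (fun z hz => (hc z (hdV hz)).continuousWithinAt)
    have h0 := hp z₀ (hdV hz₀)
    refine ⟨d, hd, us z₀ / 3, by positivity, fun y _ hy2 x hx => ?_⟩
    by_contra hc
    have hc2 : dist y x ≤ d := by
      rw [dist_comm, Complex.dist_eq]
      exact (not_le.1 hc).le
    have h1 : y ∈ Metric.cthickening d K := Metric.mem_cthickening_of_dist_le y x d _ hx hc2
    have := hmin h1
    simp only [mem_ofPred_eq] at this
    linarith

/-- the family of the holes -/
structure Adm (V : Set ℂ) (U : ℕ → Set ℂ) : Prop where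
  ms : ∀ i, MeasurableSet (U i)
  cl : ∀ i, closure (U i) ⊆ V
  dis : Pairwise (Function.onFun Disjoint U)
  fin : ∀ ε : ℝ, 0 < ε → {i | ε < Metric.diam (U i)}.Finite

/-- the sum of the squares of the charges of the holes is at most `η` -/
def SqLe (U : ℕ → Set ℂ) (g : ℂ → ℝ) (η : ℝ) : Prop :=
  ∀ s : Finset ℕ, ∑ i ∈ s, (∫ z in U i, g z) ^ 2 ≤ η

/-- **the sums of squares of the masses tend to zero**, uniformly -/
theorem squares {V K : Set ℂ} {R M : ℝ} (ho : IsOpen V) (hV : V ⊆ Metric.ball 0 R)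
    (hK : IsCompact K) (hKV : K ⊆ V) {us : ℂ → ℝ} (hc : ∀ z ∈ V, ContinuousAt us z)
    (hp : ∀ z ∈ V, 0 < us z) (hM0 : 0 ≤ M) {U : ℕ → Set ℂ} (hU : Adm V U) {ε : ℝ}
    (hε : 0 < ε) : ∃ δ₀ > 0, ∀ φ u : ℂ → ℝ, Pt V φ u → tsupport φ ⊆ K → ∫ z, φ z ≤ M →
      (∀ z ∈ V, us z ≤ u z) → ∀ δ : ℝ, 0 < δ → δ ≤ δ₀ → SqLe U (gr V φ u δ) ε := by
  rcases V.eq_empty_or_nonempty with hVe | hVn
  · refine ⟨1, one_pos, fun φ u h _ _ _ δ hδ _ s => ?_⟩
    have : ∀ i ∈ s, (∫ z in U i, gr V φ u δ z) ^ 2 = 0 := by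
      intro i _
      have h1 : U i = ∅ := by
        have := subset_closure.trans (hU.cl i)
        rw [hVe] at this
        exact subset_empty_iff.1 this
      rw [h1]
      simp
    rw [Finset.sum_congr rfl this]
    simp [hε.le]
  have hR : 0 < R := by
    obtain ⟨z, hz⟩ := hVn
    exact lt_of_le_of_lt (norm_nonneg z) (mem_ball_zero_iff.1 (hV hz))
  obtain ⟨d, hd, δ₁, hδ₁, hfar⟩ := far ho hK hKV hc hp
  -- choice of the radius
  set C : ℝ := |Real.log (9 * R ^ 2) - Real.log (d ^ 2)| * M with hC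
  have hC0 : 0 ≤ C := by positivity
  obtain ⟨r, hr, hrR, hrC⟩ : ∃ r : ℝ, 0 < r ∧ r ≤ R ∧
      (M + 1) * C / ε + 1 ≤ Real.log (9 * R ^ 2) - Real.log (2 * r ^ 2) := by
    set B : ℝ := (M + 1) * C / ε + 1 with hB
    have hB0 : 0 < B := by positivity
    refine ⟨R * Real.exp (-B), by positivity, ?_, ?_⟩
    · have : Real.exp (-B) ≤ 1 := Real.exp_le_one_iff.2 (by linarith)
      nlinarith
    · have e1 : 2 * (R * Real.exp (-B)) ^ 2 = 2 * R ^ 2 * Real.exp (-B) ^ 2 := by ring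
      have e2 : Real.log (2 * R ^ 2 * Real.exp (-B) ^ 2) = Real.log (2 * R ^ 2) - 2 * B := by
        rw [Real.log_mul (x := 2 * R ^ 2) (by positivity) (by positivity), Real.log_pow,
          Real.log_exp]
        push_cast
        ring
      rw [e1, e2]
      have h2 : Real.log (2 * R ^ 2) ≤ Real.log (9 * R ^ 2) :=
        Real.log_le_log (by positivity) (by nlinarith [sq_nonneg R])
      linarith
  -- the big sets
  have hbig : ∃ δ₂ > 0, ∀ i, r < Metric.diam (U i) → ∀ z ∈ U i, 2 * δ₂ < us z := by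
    have hf := hU.fin r hr
    have h1 : ∀ i, ∃ m > 0, ∀ z ∈ U i, 2 * m < us z := by
      intro i
      rcases (U i).eq_empty_or_nonempty with h2 | h2
      · exact ⟨1, one_pos, fun z hz => by rw [h2] at hz; exact hz.elim⟩
      · have hcc : IsCompact (closure (U i)) := by
          refine Metric.isCompact_of_isClosed_isBounded isClosed_closure ?_
          exact Metric.isBounded_ball.subset ((hU.cl i).trans hV)
        obtain ⟨z₀, hz₀, hmin⟩ := hcc.exists_isMinOn h2.closure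
          (fun z hz => (hc z (hU.cl i hz)).continuousWithinAt)
        have h0 := hp z₀ (hU.cl i hz₀)
        refine ⟨us z₀ / 3, by positivity, fun z hz => ?_⟩
        have := hmin (subset_closure hz)
        simp only [mem_ofPred_eq] at this
        linarith
    choose m hm0 hm1 using h1
    rcases (hf.toFinset).eq_empty_or_nonempty with h3 | h3
    · refine ⟨1, one_pos, fun i hi => ?_⟩
      have : i ∈ hf.toFinset := by
        rw [Set.Finite.mem_toFinset]
        exact hi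
      rw [h3] at this
      simp at this
    · obtain ⟨i₀, hi₀, hmin⟩ := Finset.exists_min_image hf.toFinset m h3
      refine ⟨m i₀, hm0 i₀, fun i hi z hz => ?_⟩
      have h4 := hmin i (by rw [Set.Finite.mem_toFinset]; exact hi)
      have h5 := hm1 i z hz
      linarith
  obtain ⟨δ₂, hδ₂, hbig⟩ := hbig
  refine ⟨min δ₁ δ₂, lt_min hδ₁ hδ₂, fun φ u h hφK hφM hus δ hδ hδ0 s => ?_⟩
  have hδ1 : δ ≤ δ₁ := hδ0.trans (min_le_left _ _)
  have hδ2 : δ ≤ δ₂ := hδ0.trans (min_le_right _ _)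
  have hφ0 : 0 ≤ ∫ z, φ z := integral_nonneg h.nn
  have hgi : Integrable (gr V φ u δ) := test_int (h.gr_test hδ)
  have hnn : ∀ A : Set ℂ, 0 ≤ ∫ z in A, gr V φ u δ z := fun A =>
    integral_nonneg fun z => h.gr_nonneg hδ z
  -- each mass is small
  have hsm : ∀ i, ∫ z in U i, gr V φ u δ z ≤ ε / (M + 1) := by
    intro i
    have hAV : U i ⊆ V := subset_closure.trans (hU.cl i)
    by_cases hz0 : ∀ z ∈ U i, gr V φ u δ z = 0
    · rw [setIntegral_congr_fun (hU.ms i) hz0]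
      simp
      positivity
    · push Not at hz0
      obtain ⟨y, hyA, hy⟩ := hz0
      have hyV := hAV hyA
      have hyu : u y ≤ 2 * δ := by
        by_contra hc
        exact hy (h.gr_zero hδ hyV (not_le.1 hc))
      have hyus := hus y hyV
      have hAd : Metric.diam (U i) ≤ r := by
        by_contra hc
        have := hbig i (not_le.1 hc) y hyA
        linarith
      have hAb : Bornology.IsBounded (U i) := Metric.isBounded_ball.subset (hAV.trans hV)
      have hAr : U i ⊆ Metric.closedBall y r := by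
        intro z hz
        rw [Metric.mem_closedBall]
        exact (Metric.dist_le_diam_of_mem hAb hz hyA).trans hAd
      have h1 := h.mass hδ hV hr hrR hd hyV
        (fun x hx => hfar y hyV (by linarith) x (hφK hx)) (hU.ms i) hAr
      have h2 : (Real.log (9 * R ^ 2) - Real.log (d ^ 2)) * (∫ z, φ z) ≤ C :=
        (mul_le_mul_of_nonneg_right (le_abs_self _) hφ0).trans
          (mul_le_mul_of_nonneg_left hφM (abs_nonneg _))
      have h3 : (∫ z in U i, gr V φ u δ z) * ((M + 1) * C / ε + 1) ≤ C :=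
        (mul_le_mul_of_nonneg_left hrC (hnn _)).trans (h1.trans h2)
      rw [le_div_iff₀ (by positivity)]
      by_contra hc
      rw [not_le] at hc
      rcases eq_or_lt_of_le hC0 with h4 | h4
      · rw [← h4] at h3
        have h5 : ∫ z in U i, gr V φ u δ z ≤ 0 := by simpa using h3
        have := hnn (U i)
        have h6 : ∫ z in U i, gr V φ u δ z = 0 := le_antisymm h5 this
        rw [h6] at hc
        linarith
      · have h5 : (∫ z in U i, gr V φ u δ z) * ((M + 1) * C / ε) =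
            ((∫ z in U i, gr V φ u δ z) * (M + 1)) * C / ε := by ring
        have h6 : ε * C / ε < ((∫ z in U i, gr V φ u δ z) * (M + 1)) * C / ε := by gcongr
        have h7 : ε * C / ε = C := by field_simp
        have := hnn (U i)
        nlinarith
  -- the sum
  have h5 : ∑ i ∈ s, (∫ z in U i, gr V φ u δ z) ≤ M := by
    have h6 : ∫ z in ⋃ i ∈ s, U i, gr V φ u δ z = ∑ i ∈ s, ∫ z in U i, gr V φ u δ z :=
      integral_biUnion_finset s (fun i _ => hU.ms i)
        (fun i _ j _ hij => hU.dis hij) (fun i _ => hgi.integrableOn)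
    rw [← h6]
    refine (setIntegral_le_integral hgi (Eventually.of_forall (h.gr_nonneg hδ))).trans ?_
    rw [h.int_gr hδ]
    exact hφM
  calc ∑ i ∈ s, (∫ z in U i, gr V φ u δ z) ^ 2
      ≤ ∑ i ∈ s, (ε / (M + 1)) * (∫ z in U i, gr V φ u δ z) := by
        refine Finset.sum_le_sum fun i _ => ?_
        rw [sq]
        exact mul_le_mul_of_nonneg_right (hsm i) (hnn _)
    _ = (ε / (M + 1)) * ∑ i ∈ s, (∫ z in U i, gr V φ u δ z) := by rw [Finset.mul_sum]
    _ ≤ (ε / (M + 1)) * M := mul_le_mul_of_nonneg_left h5 (by positivity)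
    _ ≤ ε := by
        rw [div_mul_eq_mul_div, div_le_iff₀ (by positivity)]
        nlinarith

end Vale.Agent.P155.SW877
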