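import Vale.Agent.P155.SW877.Good
import Vale.Agent.P155.SW34.PtPh
import Vale.Agent.P155.SW34.Dense
import Vale.Agent.P155.SW801.Defs

/-!
# P155 (SW), block (4): POT and SQUARE
-/

namespace Vale.Agent.P155.SW877

open MeasureTheory Set Filter Topology
open scoped ContDiff

open U Y877

theorem lapC_eq (ψ : ℂ → ℝ) (z : ℂ) : UK.lapC ψ z = -nlap ψ z := by
  have a1 : UK.dx (UK.dx ψ) z = fderiv ℝ (fun w => fderiv ℝ ψ w 1) z 1 := rfl
  have a2 : UK.dy (UK.dy ψ) z = fderiv ℝ (fun w => fderiv ℝ ψ w Complex.I) z Complex.I := rfl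
  unfold UK.lapC nlap
  rw [a1, a2, neg_neg]

theorem add_lapC (φ ψ : ℂ → ℝ) : (fun z => φ z + UK.lapC ψ z) = fun z => φ z - nlap ψ z := by
  funext z
  rw [lapC_eq]
  ring

theorem square_thm : SWR.SQUARE := by
  intro W _ hb φ ψ hφ hψ
  rw [add_lapC]
  exact green_square hb hφ hψ

/-! ### components -/

section
variable {W : Set ℂ} (hW : IsOpen W)
include hW

theorem comp_open (x : ℂ) : IsOpen (connectedComponentIn W x) := hW.connectedComponentIn

theorem compl_comp_open (x : ℂ) : IsOpen (W \ connectedComponentIn W x) := by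
  rw [isOpen_iff_mem_nhds]
  rintro z ⟨hz, hzx⟩
  refine mem_of_superset ((comp_open hW z).mem_nhds (mem_connectedComponentIn hz)) fun w hw => ?_
  refine ⟨connectedComponentIn_subset W z hw, fun hwx => hzx ?_⟩
  have h1 := connectedComponentIn_eq hw
  have h2 := connectedComponentIn_eq hwx
  rw [h2, ← h1]
  exact mem_connectedComponentIn hz

theorem compl_union_open (t : Finset ℂ) :
    IsOpen (W \ ⋃ x ∈ t, connectedComponentIn W x) := by
  have e : W \ ⋃ x ∈ t, connectedComponentIn W x =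
      W ∩ ⋂ x ∈ t, (W \ connectedComponentIn W x) := by
    ext z
    simp only [Set.mem_sdiff, mem_iUnion, mem_inter_iff, mem_iInter, exists_prop, not_exists, not_and]
    constructor
    · rintro ⟨h1, h2⟩
      exact ⟨h1, fun x hx => ⟨h1, h2 x hx⟩⟩
    · rintro ⟨h1, h2⟩
      exact ⟨h1, fun x hx => (h2 x hx).2⟩
  rw [e]
  exact hW.inter (isOpen_biInter_finset fun x _ => compl_comp_open hW x)

/-- the potential of a bump in a union of components -/
theorem bump_pt0 (hb : Bornology.IsBounded W)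
    (hsc : ∀ z ∈ W, SimplyConnectedSpace (connectedComponentIn W z)) {V : Set ℂ} (hVo : IsOpen V)
    (hVW : V ⊆ W) (hVc : ∀ z ∈ V, connectedComponentIn W z ⊆ V) {z : ℂ} {ρ : ℝ} (hρ : 0 < ρ)
    (hB : Metric.closedBall z ρ ⊆ V) : ∃ u, Pt0 V (ph z ρ) u ∧
      ∀ w ∈ connectedComponentIn W z, 0 < u w := by
  have hz : z ∈ V := hB (Metric.mem_closedBall_self hρ.le)
  set C := connectedComponentIn W z with hC
  have hCo : IsOpen C := comp_open hW z
  have hBC : Metric.closedBall z ρ ⊆ C :=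
    (convex_closedBall z ρ).isPreconnected.subset_connectedComponentIn
      (Metric.mem_closedBall_self hρ.le) (hB.trans hVW)
  have hCV : C ⊆ V := hVc z hz
  have hCb : Bornology.IsBounded C := hb.subset (connectedComponentIn_subset W z)
  obtain ⟨u, a1, a2, a3, a4, a5, a6⟩ := SW34.pt_ph hCo hCb (hsc z (hVW hz)) hρ hBC
  have hp : Pt C (ph z ρ) u := ⟨hCo, a1, a2, a3, a4, a5, a6⟩
  have ho : IsOpen (V \ C) := by
    have e : V \ C = V ∩ (W \ C) := by
      ext w
      simp only [Set.mem_sdiff, mem_inter_iff]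
      exact ⟨fun h => ⟨h.1, hVW h.1, h.2⟩, fun h => ⟨h.1, h.2.2⟩⟩
    rw [e]
    exact hVo.inter (compl_comp_open hW z)
  refine ⟨_, hp.ext hCV ho, fun w hw => ?_⟩
  rw [if_pos hw]
  exact a2 w hw

end

/-! ### limits of sums of squares -/

theorem tend_of {U : ℕ → Set ℂ} {g : ℕ → ℂ → ℝ}
    (h : ∀ ε : ℝ, 0 < ε → ∀ᶠ n in atTop, SqLe U (g n) ε) :
    Tendsto (fun n => ∑' i, (∫ z in U i, g n z) ^ 2) atTop (𝓝 0) := by
  refine tendsto_order.2 ⟨fun a ha => Eventually.of_forall fun n =>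
    lt_of_lt_of_le ha (tsum_nonneg fun i => sq_nonneg _), fun a ha => ?_⟩
  filter_upwards [h (a / 2) (half_pos ha)] with n hn
  have h1 : ∑' i, (∫ z in U i, g n z) ^ 2 ≤ a / 2 :=
    Real.tsum_le_of_sum_le (fun i => sq_nonneg _) hn
  linarith

theorem int_le {V : Set ℂ} {R δ : ℝ} (hV : V ⊆ Metric.ball 0 R) {f : ℂ → ℝ}
    (hf : IsTest V f) (hfδ : ∀ z, |f z| ≤ δ) :
    ∫ z, f z ≤ δ * volume.real (Metric.ball (0 : ℂ) R) := by
  have e : ∫ z in Metric.ball (0 : ℂ) R, f z = ∫ z, f z := by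
    refine setIntegral_eq_integral_of_forall_compl_eq_zero fun z hz => ?_
    exact test_zero hf (fun h => hz (hV h))
  rw [← e]
  have h2 := norm_setIntegral_le_of_norm_le_const (μ := volume) (s := Metric.ball (0 : ℂ) R)
    (f := f) (C := δ) measure_ball_lt_top (fun z _ => by rw [Real.norm_eq_abs]; exact hfδ z)
  exact (le_abs_self _).trans h2

/-- a cutoff -/
theorem exists_cut {V K : Set ℂ} (hV : IsOpen V) (hK : IsCompact K) (hKV : K ⊆ V) :
    ∃ χ : ℂ → ℝ, IsTest V χ ∧ (∀ z, 0 ≤ χ z) ∧ ∀ z ∈ K, χ z = 1 := by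
  obtain ⟨L, hL, hKL, hLU⟩ := exists_compact_between hK hV hKV
  obtain ⟨χ, hχ1, hχ0, hχ2⟩ := exists_contMDiffMap_one_nhds_of_subset_interior
    (modelWithCornersSelf ℝ ℂ) (n := (⊤ : ℕ∞)) hK.isClosed hKL
  have hχc : ContDiff ℝ ((⊤ : ℕ∞) : WithTop ℕ∞) (χ : ℂ → ℝ) := χ.contMDiff.contDiff
  have hs : tsupport (χ : ℂ → ℝ) ⊆ L := by
    refine closure_minimal (fun z hz => ?_) hL.isClosed
    by_contra hzL
    exact hz (hχ0 z hzL)
  refine ⟨χ, ⟨hχc, hL.of_isClosed_subset (isClosed_tsupport _) hs, hs.trans hLU⟩,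
    fun z => (hχ2 z).1, fun z hz => hχ1.self_of_nhdsSet z hz⟩

/-- the data of the approximation of a nonnegative charge -/
theorem approx {V W : Set ℂ} (hW : IsOpen W) (hb : Bornology.IsBounded W)
    (hsc : ∀ z ∈ W, SimplyConnectedSpace (connectedComponentIn W z)) (hVo : IsOpen V)
    (hVW : V ⊆ W) (hVc : ∀ z ∈ V, connectedComponentIn W z ⊆ V) {O : Set ℂ} (hO : IsOpen O)
    (hOV : O ⊆ V) {φ : ℂ → ℝ} (hφ : IsTest O φ) (h0 : ∀ z, 0 ≤ φ z) {ε : ℝ} (hε : 0 < ε) :
    ∃ S u, Pt0 V S u ∧ IsTest O S ∧ ∀ z, |φ z - S z| ≤ ε := by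
  obtain ⟨n, c, z, ρ, h1, h2⟩ := SW34.dense_ph hO hφ h0 hε
  have h3 : ∀ i, ∃ u, Pt0 V (ph (z i) (ρ i)) u := fun i =>
    let ⟨u, hu, _⟩ := bump_pt0 hW hb hsc hVo hVW hVc (h1 i).2.1 ((h1 i).2.2.trans hOV)
    ⟨u, hu⟩
  choose u hu using h3
  have h4 := Pt0.sum Finset.univ (V := V) (φ := fun i w => c i * ph (z i) (ρ i) w)
    (u := fun i w => c i * u i w) fun i _ => (hu i).smul (h1 i).1
  refine ⟨_, _, h4, ?_, h2⟩
  have h5 : ∀ s : Finset (Fin n), IsTest O (fun w => ∑ i ∈ s, c i * ph (z i) (ρ i) w) := by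
    classical
    intro s
    induction s using Finset.induction_on with
    | empty => simpa using isTest_zero O
    | insert i s hi ih =>
      have e1 : (fun w => ∑ j ∈ insert i s, c j * ph (z j) (ρ j) w) =
          fun w => c i * ph (z i) (ρ i) w + ∑ j ∈ s, c j * ph (z j) (ρ j) w := by
        funext w
        rw [Finset.sum_insert hi]
      rw [e1]
      exact test_add (Uq.Gam.test_smul (isTest_ph (h1 i).2.1 (h1 i).2.2) _) ih
  exact h5 Finset.univ

theorem IsTest_mono {V W : Set ℂ} (h : V ⊆ W) {f : ℂ → ℝ} (hf : IsTest V f) : IsTest W f :=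
  ⟨hf.1, hf.2.1, hf.2.2.trans h⟩

/-- POT with a uniform bound of the masses -/
theorem pot_strong : ∀ W : Set ℂ, IsOpen W → Bornology.IsBounded W →
    (∀ z ∈ W, SimplyConnectedSpace (connectedComponentIn W z)) → ∀ φ, IsTest W φ →
    ∃ ψ : ℕ → ℂ → ℝ, (∀ n, IsTest W (ψ n)) ∧
    (∃ C : ℝ, ∀ n, ∫ z, |φ z + UK.lapC (ψ n) z| ≤ C) ∧
    Tendsto (fun n => greenEnergy W (fun z => φ z + UK.lapC (ψ n) z)) atTop (𝓝 0) ∧
    ∀ U : ℕ → Set ℂ, (∀ i, IsOpen (U i)) → Pairwise (Function.onFun Disjoint U) →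
      (∀ i, closure (U i) ⊆ W) → (∀ ε : ℝ, 0 < ε → {i | ε < Metric.diam (U i)}.Finite) →
      (∀ n, Summable fun i => (∫ z in U i, (φ z + UK.lapC (ψ n) z)) ^ 2) ∧
      Tendsto (fun n => ∑' i, (∫ z in U i, (φ z + UK.lapC (ψ n) z)) ^ 2) atTop (𝓝 0) := by
  classical
  intro W hW hb hsc φ hφ
  obtain ⟨R, hR, hWR⟩ : ∃ R : ℝ, 0 < R ∧ W ⊆ Metric.ball 0 R := by
    obtain ⟨r, hr⟩ := hb.subset_ball 0
    exact ⟨max r 1, lt_max_of_lt_right one_pos,
      hr.trans (Metric.ball_subset_ball (le_max_left _ _))⟩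
  -- the components which meet the support
  obtain ⟨t, htW, ht⟩ : ∃ t : Finset ℂ, (∀ x ∈ t, x ∈ W) ∧
      tsupport φ ⊆ ⋃ x ∈ t, connectedComponentIn W x := by
    obtain ⟨t, ht⟩ := hφ.2.1.isCompact.elim_nhds_subcover' (fun x _ => connectedComponentIn W x)
      (fun x hx => (comp_open hW x).mem_nhds (mem_connectedComponentIn (hφ.2.2 hx)))
    refine ⟨t.image Subtype.val, fun x hx => ?_, fun z hz => ?_⟩
    · obtain ⟨y, -, rfl⟩ := Finset.mem_image.1 hx
      exact hφ.2.2 y.2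
    · obtain ⟨y, hy, hzy⟩ := mem_iUnion₂.1 (ht hz)
      exact mem_iUnion₂.2 ⟨y, Finset.mem_image_of_mem _ hy, hzy⟩
  set V : Set ℂ := ⋃ x ∈ t, connectedComponentIn W x with hV
  have hVo : IsOpen V := isOpen_biUnion fun x _ => comp_open hW x
  have hVW : V ⊆ W := iUnion₂_subset fun x _ => connectedComponentIn_subset W x
  have hVR : V ⊆ Metric.ball 0 R := hVW.trans hWR
  have hVb : Bornology.IsBounded V := hb.subset hVW
  have hWV : IsOpen (W \ V) := compl_union_open hW t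
  have hVc : ∀ z ∈ V, connectedComponentIn W z ⊆ V := by
    intro z hz
    obtain ⟨x, hx, hzx⟩ := mem_iUnion₂.1 hz
    rw [← connectedComponentIn_eq hzx]
    exact subset_biUnion_of_mem (u := fun x => connectedComponentIn W x) hx
  -- one bump in each component
  have hbump : ∀ x ∈ t, ∃ ρ : ℝ, 0 < ρ ∧ ∃ u, Pt0 V (ph x ρ) u ∧
      ∀ w ∈ connectedComponentIn W x, 0 < u w := by
    intro x hx
    have hxV : x ∈ V := mem_iUnion₂.2 ⟨x, hx, mem_connectedComponentIn (htW x hx)⟩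
    obtain ⟨ρ, hρ, hB⟩ := Metric.nhds_basis_closedBall.mem_iff.1 (hVo.mem_nhds hxV)
    exact ⟨ρ, hρ, bump_pt0 hW hb hsc hVo hVW hVc hρ hB⟩
  choose! ρ hρ us hus0 hus1 using hbump
  set p : ℂ → ℝ := fun z => ∑ x ∈ t, ph x (ρ x) z with hp
  set v : ℂ → ℝ := fun z => ∑ x ∈ t, us x z with hv
  have hpv : Pt0 V p v := Pt0.sum t hus0
  have hvpos : ∀ z ∈ V, 0 < v z := by
    intro z hz
    obtain ⟨x, hx, hzx⟩ := mem_iUnion₂.1 hz
    exact lt_of_lt_of_le (hus1 x hx z hzx)
      (Finset.single_le_sum (f := fun x => us x z) (fun x hx => (hus0 x hx).nng z hz) hx)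
  -- the decomposition of `φ`
  have hφV : IsTest V φ := ⟨hφ.1, hφ.2.1, ht⟩
  obtain ⟨B, hB0, hB⟩ := test_bound hφ
  obtain ⟨χ, hχ, hχ0, hχ1⟩ := exists_cut hVo hφ.2.1.isCompact ht
  set φ₂ : ℂ → ℝ := fun z => B * χ z with hφ₂
  set φ₁ : ℂ → ℝ := fun z => φ z + φ₂ z with hφ₁
  have t2 : IsTest V φ₂ := Uq.Gam.test_smul hχ B
  have t1 : IsTest V φ₁ := test_add hφV t2
  have n2 : ∀ z, 0 ≤ φ₂ z := fun z => mul_nonneg hB0.le (hχ0 z)
  have n1 : ∀ z, 0 ≤ φ₁ z := by
    intro z
    by_cases hz : z ∈ tsupport φ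
    · have h1 := (abs_le.1 (hB z)).1
      show 0 ≤ φ z + B * χ z
      rw [hχ1 z hz]
      linarith
    · show 0 ≤ φ z + φ₂ z
      rw [image_eq_zero_of_notMem_tsupport hz, zero_add]
      exact n2 z
  -- the compact set
  obtain ⟨L, hL, hL1, hL2⟩ := exists_compact_between
    (t1.2.1.isCompact.union t2.2.1.isCompact) hVo (union_subset t1.2.2 t2.2.2)
  have o1 : IsTest (interior L) φ₁ := ⟨t1.1, t1.2.1, subset_union_left.trans hL1⟩
  have o2 : IsTest (interior L) φ₂ := ⟨t2.1, t2.2.1, subset_union_right.trans hL1⟩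
  set K : Set ℂ := L ∪ tsupport p with hK
  have hKc : IsCompact K := hL.union hpv.test.2.1.isCompact
  have hKV : K ⊆ V := union_subset hL2 hpv.test.2.2
  -- the approximations
  set e : ℕ → ℝ := fun n => 1 / ((n : ℝ) + 1) with he
  have he0 : ∀ n, 0 < e n := fun n => by rw [he]; positivity
  have he1 : ∀ n, e n ≤ 1 := by
    intro n
    rw [he]
    simp only
    rw [div_le_one (by positivity)]
    have : (0 : ℝ) ≤ n := Nat.cast_nonneg n
    linarith
  have het : Tendsto e atTop (𝓝 0) := tendsto_one_div_add_atTop_nhds_zero_nat (𝕜 := ℝ)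
  have hLV : interior L ⊆ V := interior_subset.trans hL2
  choose S₁ u₁ hS₁ hT₁ hA₁ using fun n =>
    approx hW hb hsc hVo hVW hVc isOpen_interior hLV o1 n1 (he0 n)
  choose S₂ u₂ hS₂ hT₂ hA₂ using fun n =>
    approx hW hb hsc hVo hVW hVc isOpen_interior hLV o2 n2 (he0 n)
  set vol := volume.real (Metric.ball (0 : ℂ) R) with hvol
  have hvol0 : 0 ≤ vol := measureReal_nonneg
  set M : ℝ := (∫ z, φ₁ z) + (∫ z, φ₂ z) + vol + ∫ z, p z with hM
  have i1 : 0 ≤ ∫ z, φ₁ z := integral_nonneg n1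
  have i2 : 0 ≤ ∫ z, φ₂ z := integral_nonneg n2
  have ip : 0 ≤ ∫ z, p z := integral_nonneg hpv.nn
  have hM0 : 0 ≤ M := by positivity
  -- facts about one approximation
  have fact : ∀ {ψ S w : ℂ → ℝ} {n : ℕ}, IsTest V ψ → (∫ z, ψ z) + vol + (∫ z, p z) ≤ M →
      Pt0 V S w → IsTest (interior L) S → (∀ z, |ψ z - S z| ≤ e n) →
      Pt V (fun z => S z + p z) (fun z => w z + v z) ∧ tsupport (fun z => S z + p z) ⊆ K ∧
      ∫ z, (S z + p z) ≤ M ∧ ∀ z ∈ V, v z ≤ w z + v z := by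
    intro ψ S w n hψ hψM hS hT hA
    refine ⟨(hS.add hpv).pt hVo fun z hz => add_pos_of_nonneg_of_pos (hS.nng z hz) (hvpos z hz),
      ?_, ?_, fun z hz => le_add_of_nonneg_left (hS.nng z hz)⟩
    · refine closure_minimal (fun z hz => ?_) hKc.isClosed
      by_contra hzK
      rw [hK, mem_union, not_or] at hzK
      apply hz
      show S z + p z = 0
      rw [test_zero hT (fun h => hzK.1 (interior_subset h)),
        image_eq_zero_of_notMem_tsupport hzK.2, add_zero]
    · rw [integral_add (test_int hS.test) (test_int hpv.test)]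
      have h1 : IsTest V (fun z => S z - ψ z) := test_sub hS.test hψ
      have h2 := int_le hVR h1 (δ := e n) (fun z => by rw [abs_sub_comm]; exact hA z)
      rw [integral_sub (test_int hS.test) (test_int hψ)] at h2
      have h3 : e n * vol ≤ 1 * vol := mul_le_mul_of_nonneg_right (he1 n) hvol0
      linarith
  have F₁ := fun n => fact t1 (by rw [hM]; linarith) (hS₁ n) (hT₁ n) (hA₁ n)
  have F₂ := fun n => fact t2 (by rw [hM]; linarith) (hS₂ n) (hT₂ n) (hA₂ n)
  -- the charges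
  set g₁ : ℕ → ℂ → ℝ := fun n => gr V (fun z => S₁ n z + p z) (fun z => u₁ n z + v z) (e n)
    with hg₁
  set g₂ : ℕ → ℂ → ℝ := fun n => gr V (fun z => S₂ n z + p z) (fun z => u₂ n z + v z) (e n)
    with hg₂
  set w₁ : ℕ → ℂ → ℝ := fun n => tr V (fun z => u₁ n z + v z) (e n) with hw₁
  set w₂ : ℕ → ℂ → ℝ := fun n => tr V (fun z => u₂ n z + v z) (e n) with hw₂
  set er : ℕ → ℂ → ℝ := fun n z => (φ₁ z - S₁ n z) + -(φ₂ z - S₂ n z) with her
  have tg1 : ∀ n, IsTest V (g₁ n) := fun n => (F₁ n).1.gr_test (he0 n)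
  have tg2 : ∀ n, IsTest V (g₂ n) := fun n => (F₂ n).1.gr_test (he0 n)
  have tw1 : ∀ n, IsTest V (w₁ n) := fun n => (F₁ n).1.tr_test (he0 n)
  have tw2 : ∀ n, IsTest V (w₂ n) := fun n => (F₂ n).1.tr_test (he0 n)
  have tneg : ∀ {f : ℂ → ℝ}, IsTest V f → IsTest V (fun z => -f z) := by
    intro f hf
    have h := test_sub (isTest_zero V) hf
    simpa using h
  have ter : ∀ n, IsTest V (er n) := fun n =>
    test_add (test_sub t1 (hS₁ n).test) (tneg (test_sub t2 (hS₂ n).test))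
  have ber : ∀ n z, |er n z| ≤ 2 * e n := by
    intro n z
    refine (abs_add_le _ _).trans ?_
    rw [abs_neg]
    linarith [hA₁ n z, hA₂ n z]
  have dec : ∀ n, (fun z => φ z + UK.lapC (fun w => w₁ n w - w₂ n w) z) =
      fun z => (g₁ n z + -g₂ n z) + er n z := by
    intro n
    rw [add_lapC]
    funext z
    have h1 : nlap (fun w => w₁ n w - w₂ n w) z = nlap (w₁ n) z - nlap (w₂ n) z := by
      have h2 := nlap_add (z := z) (tw1 n).1.contDiffAt (Uq.Gam.test_smul (tw2 n) (-1)).1.contDiffAt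
      rw [nlap_smul (tw2 n).1.contDiffAt] at h2
      have h3 : (fun w => w₁ n w + -1 * w₂ n w) = fun w => w₁ n w - w₂ n w := by
        funext w
        ring
      rw [h3] at h2
      rw [h2]
      ring
    rw [h1]
    simp only [hg₁, hg₂, her, hw₁, hw₂, gr, hφ₁]
    ring
  refine ⟨fun n w => w₁ n w - w₂ n w, fun n => IsTest_mono hVW (test_sub (tw1 n) (tw2 n)),
    ⟨2 * M + 2 * vol, fun n => ?_⟩, ?_, ?_⟩
  · -- the masses
    have e1 : ∀ z, φ z + UK.lapC (fun w => w₁ n w - w₂ n w) z =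
        (g₁ n z + -g₂ n z) + er n z := fun z => congrFun (dec n) z
    simp_rw [e1]
    have j1 : Integrable (g₁ n) := test_int (tg1 n)
    have j2 : Integrable (g₂ n) := test_int (tg2 n)
    have j3 : Integrable (fun z => |er n z|) := (test_int (ter n)).abs
    have j4 : Integrable (fun z => |(g₁ n z + -g₂ n z) + er n z|) :=
      (test_int (test_add (test_add (tg1 n) (tneg (tg2 n))) (ter n))).abs
    have m1 : ∫ z, g₁ n z ≤ M := by
      rw [(F₁ n).1.int_gr (he0 n)]
      exact (F₁ n).2.2.1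
    have m2 : ∫ z, g₂ n z ≤ M := by
      rw [(F₂ n).1.int_gr (he0 n)]
      exact (F₂ n).2.2.1
    have m3 : ∫ z, |er n z| ≤ 2 * e n * vol := by
      have e2 : ∫ z in Metric.ball (0 : ℂ) R, |er n z| = ∫ z, |er n z| := by
        refine setIntegral_eq_integral_of_forall_compl_eq_zero fun z hz => ?_
        rw [test_zero (ter n) (fun h => hz (hVR h)), abs_zero]
      rw [← e2]
      have h2 := norm_setIntegral_le_of_norm_le_const (μ := volume) (s := Metric.ball (0 : ℂ) R)
        (f := fun z => |er n z|) (C := 2 * e n) measure_ball_lt_top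
        (fun z _ => by rw [Real.norm_eq_abs, abs_abs]; exact ber n z)
      exact (le_abs_self _).trans h2
    have m4 : ∫ z, |(g₁ n z + -g₂ n z) + er n z| ≤ ∫ z, ((g₁ n z + g₂ n z) + |er n z|) := by
      refine integral_mono j4 ((j1.add j2).add j3) fun z => ?_
      have a1 := (F₁ n).1.gr_nonneg (he0 n) z
      have a2 := (F₂ n).1.gr_nonneg (he0 n) z
      refine (abs_add_le _ _).trans (add_le_add ?_ le_rfl)
      refine (abs_add_le _ _).trans ?_
      rw [abs_neg]
      show |g₁ n z| + |g₂ n z| ≤ g₁ n z + g₂ n z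
      rw [abs_of_nonneg (show 0 ≤ g₁ n z from a1), abs_of_nonneg (show 0 ≤ g₂ n z from a2)]
    have m5 : ∫ z, ((g₁ n z + g₂ n z) + |er n z|) =
        ((∫ z, g₁ n z) + ∫ z, g₂ n z) + ∫ z, |er n z| := by
      have h1 : Integrable (fun z => g₁ n z + g₂ n z) := j1.add j2
      rw [integral_add h1 j3, integral_add j1 j2]
    have m6 : 2 * e n * vol ≤ 2 * vol := by
      have := mul_le_mul_of_nonneg_right (he1 n) hvol0
      linarith
    linarith
  · -- the energy
    have hg : ∀ n, IsTest V (fun z => (g₁ n z + -g₂ n z) + er n z) := fun n =>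
      test_add (test_add (tg1 n) (tneg (tg2 n))) (ter n)
    have up : ∀ n, greenEnergy W (fun z => φ z + UK.lapC (fun w => w₁ n w - w₂ n w) z) ≤
        16 * M * e n + 1280 * R ^ 4 * e n ^ 2 := by
      intro n
      rw [dec n]
      refine (green_clopen hVb hVo hWV (hg n)).trans ?_
      have a1 := green_add hVb (test_add (tg1 n) (tneg (tg2 n))) (ter n)
      have a2 := green_add hVb (tg1 n) (tneg (tg2 n))
      have a3 := green_neg hVb (tg2 n)
      have a4 : greenEnergy V (g₁ n) ≤ 2 * e n * M :=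
        ((F₁ n).1.gr_energy (he0 n)).trans
          (mul_le_mul_of_nonneg_left (F₁ n).2.2.1 (by have := he0 n; positivity))
      have a5 : greenEnergy V (g₂ n) ≤ 2 * e n * M :=
        ((F₂ n).1.gr_energy (he0 n)).trans
          (mul_le_mul_of_nonneg_left (F₂ n).2.2.1 (by have := he0 n; positivity))
      have a6 : greenEnergy V (er n) ≤ 160 * (R ^ 2 * (2 * e n)) ^ 2 :=
        UK.greenEnergy_sup hR (fun z hz => mem_ball_zero_iff.1 (hVR hz)) (ber n) fun z hz => by
          refine test_zero (ter n) fun h => ?_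
          have := mem_ball_zero_iff.1 (hVR h)
          linarith
      have a7 : 2 * (160 * (R ^ 2 * (2 * e n)) ^ 2) = 1280 * R ^ 4 * e n ^ 2 := by ring
      linarith
    have lim : Tendsto (fun n => 16 * M * e n + 1280 * R ^ 4 * e n ^ 2) atTop (𝓝 0) := by
      have h1 := (het.const_mul (16 * M)).add ((het.pow 2).const_mul (1280 * R ^ 4))
      simpa using h1
    refine squeeze_zero (fun n => ?_) up lim
    rw [dec n]
    exact green_nonneg hb (IsTest_mono hVW (hg n))
  · -- the squares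
    intro U hUo hUd hUc hUf
    have hg : ∀ n, IsTest V (fun z => (g₁ n z + -g₂ n z) + er n z) := fun n =>
      test_add (test_add (tg1 n) (tneg (tg2 n))) (ter n)
    set U' : ℕ → Set ℂ := fun i => U i ∩ V with hU'
    have hadm : Adm V U' := by
      refine ⟨fun i => ((hUo i).inter hVo).measurableSet, fun i z hz => ?_, fun i j hij => ?_,
        fun ε hε => ?_⟩
      · have h1 : z ∈ W := hUc i (closure_mono inter_subset_left hz)
        by_contra h2
        obtain ⟨w, hw1, hw2⟩ := mem_closure_iff.1 hz _ hWV ⟨h1, h2⟩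
        exact hw1.2 hw2.2
      · exact (hUd hij).mono inter_subset_left inter_subset_left
      · refine (hUf ε hε).subset fun i hi => ?_
        refine lt_of_lt_of_le hi (Metric.diam_mono inter_subset_left ?_)
        exact hb.subset (subset_closure.trans (hUc i))
    have hres : ∀ n i, ∫ z in U i, (φ z + UK.lapC (fun w => w₁ n w - w₂ n w) z) =
        ∫ z in U' i, ((g₁ n z + -g₂ n z) + er n z) := by
      intro n i
      have e1 : ∀ z, φ z + UK.lapC (fun w => w₁ n w - w₂ n w) z =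
          (g₁ n z + -g₂ n z) + er n z := fun z => congrFun (dec n) z
      simp_rw [e1]
      refine setIntegral_eq_of_subset_of_forall_sdiff_eq_zero (hUo i).measurableSet
        inter_subset_left fun z hz => ?_
      exact test_zero (hg n) fun h => hz.2 ⟨hz.1, h⟩
    have hsum : ∀ ε : ℝ, 0 < ε → ∀ᶠ n in atTop,
        SqLe U' (fun z => (g₁ n z + -g₂ n z) + er n z) ε := by
      intro ε hε
      obtain ⟨δ₀, hδ₀, hsq⟩ := squares hVo hVR hKc hKV
        (fun z hz => (hpv.sm z hz).continuousAt) hvpos hM0 hadm (ε := ε / 16) (by positivity)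
      have l1 : ∀ᶠ n in atTop, e n < δ₀ := het.eventually_lt_const hδ₀
      have l2 : ∀ᶠ n in atTop, 2 * (2 * e n * vol) ^ 2 < ε / 2 := by
        have h1 : Tendsto (fun n => 2 * (2 * e n * vol) ^ 2) atTop (𝓝 0) := by
          have := (((het.const_mul 2).mul_const vol).pow 2).const_mul 2
          simpa using this
        exact h1.eventually_lt_const (by positivity)
      filter_upwards [l1, l2] with n h1 h2
      have b1 : SqLe U' (g₁ n) (ε / 16) :=
        hsq _ _ (F₁ n).1 (F₁ n).2.1 (F₁ n).2.2.1 (F₁ n).2.2.2 (e n) (he0 n) h1.le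
      have b2 : SqLe U' (g₂ n) (ε / 16) :=
        hsq _ _ (F₂ n).1 (F₂ n).2.1 (F₂ n).2.2.1 (F₂ n).2.2.2 (e n) (he0 n) h1.le
      have b3 := b1.add b2.neg (test_int (tg1 n)) (test_int (tneg (tg2 n)))
      have b4 := sqLe_of_sup hVR (ter n) (ber n) hadm.ms hadm.dis
      have b5 := b3.add b4 (test_int (test_add (tg1 n) (tneg (tg2 n)))) (test_int (ter n))
      refine b5.mono ?_
      linarith
    constructor
    · intro n
      obtain ⟨b, -, hb⟩ := test_bound (hg n)
      have h1 := sqLe_of_sup hVR (hg n) hb hadm.ms hadm.dis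
      simp_rw [hres]
      exact summable_of_sum_le (fun i => sq_nonneg _) h1
    · simp_rw [hres]
      exact tend_of hsum

theorem pot_thm : SWR.POT := by
  intro W hW hb hsc φ hφ
  obtain ⟨ψ, h1, -, h2, h3⟩ := pot_strong W hW hb hsc φ hφ
  exact ⟨ψ, h1, h2, h3⟩

end Vale.Agent.P155.SW877
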