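import Vale.Agent.P155.Y877.R1
import Vale.Agent.P155.U.Taylor
import Vale.Agent.P155.NT733.YA

/-!
# P155 (SW), block (4): truncated potentials
-/

namespace Vale.Agent.P155.SW877

open MeasureTheory Set Filter Topology
open scoped ContDiff

open U Y877

/-- a positive potential of `φ` on `V` which vanishes at the boundary -/
structure Pt (V : Set ℂ) (φ u : ℂ → ℝ) : Prop where
  ho : IsOpen V
  sm : ∀ z ∈ V, ContDiffAt ℝ ∞ u z
  pos : ∀ z ∈ V, 0 < u z
  lim : ∀ δ : ℝ, 0 < δ → ∃ K, IsCompact K ∧ K ⊆ V ∧ ∀ z ∈ V, δ ≤ u z → z ∈ K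
  test : IsTest V φ
  nn : ∀ z, 0 ≤ φ z
  nl : ∀ z ∈ V, nlap u z = φ z

open Classical in
/-- the truncated potential -/
noncomputable def tr (V : Set ℂ) (u : ℂ → ℝ) (δ : ℝ) (z : ℂ) : ℝ := if z ∈ V then T δ (u z) else 0

/-- the rest of the charge -/
noncomputable def gr (V : Set ℂ) (φ u : ℂ → ℝ) (δ : ℝ) (z : ℂ) : ℝ := φ z - nlap (tr V u δ) z

theorem tr_in {V : Set ℂ} {u : ℂ → ℝ} {δ : ℝ} {z : ℂ} (hz : z ∈ V) : tr V u δ z = T δ (u z) :=
  if_pos hz

theorem tr_out {V : Set ℂ} {u : ℂ → ℝ} {δ : ℝ} {z : ℂ} (hz : z ∉ V) : tr V u δ z = 0 :=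
  if_neg hz

theorem test_sub {V : Set ℂ} {f g : ℂ → ℝ} (hf : IsTest V f) (hg : IsTest V g) :
    IsTest V (fun z => f z - g z) := by
  have hs : tsupport (fun z => f z - g z) ⊆ tsupport f ∪ tsupport g := by
    refine closure_minimal (fun z hz => ?_) ((isClosed_tsupport f).union (isClosed_tsupport g))
    by_contra h
    rw [mem_union, not_or] at h
    apply hz
    show f z - g z = 0
    rw [image_eq_zero_of_notMem_tsupport h.1, image_eq_zero_of_notMem_tsupport h.2, sub_zero]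
  refine ⟨hf.1.sub hg.1, ?_, hs.trans (union_subset hf.2.2 hg.2.2)⟩
  exact (hf.2.1.isCompact.union hg.2.1.isCompact).of_isClosed_subset (isClosed_tsupport _) hs

theorem dst_hasDerivAt {δ : ℝ} (t : ℝ) :
    HasDerivAt (fun t => Real.smoothTransition (t / δ - 1))
      (deriv (fun t => Real.smoothTransition (t / δ - 1)) t) t := by
  have h1 : ContDiff ℝ 1 (fun t : ℝ => Real.smoothTransition (t / δ - 1)) :=
    Real.smoothTransition.contDiff.comp ((contDiff_id.div_const δ).sub contDiff_const)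
  exact (h1.differentiable (by norm_num) t).hasDerivAt

theorem dst_nonneg {δ : ℝ} (hδ : 0 < δ) (t : ℝ) :
    0 ≤ deriv (fun t => Real.smoothTransition (t / δ - 1)) t := by
  have hm : Monotone (fun t : ℝ => Real.smoothTransition (t / δ - 1)) := by
    intro a b hab
    refine Real.smoothTransition.monotone ?_
    have : a / δ ≤ b / δ := div_le_div_of_nonneg_right hab hδ.le
    linarith
  exact hm.deriv_nonneg

theorem dst_zero {δ : ℝ} (hδ : 0 < δ) {t : ℝ} (h : 2 * δ < t) :
    deriv (fun t => Real.smoothTransition (t / δ - 1)) t = 0 := by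
  have h5 : (fun t => Real.smoothTransition (t / δ - 1)) =ᶠ[𝓝 t] fun _ => (1 : ℝ) := by
    filter_upwards [lt_mem_nhds h] with t ht
    refine Real.smoothTransition.one_of_one_le ?_
    rw [le_sub_iff_add_le, le_div_iff₀ hδ]
    linarith
  rw [h5.deriv_eq]
  simp

theorem T_sub_pos {δ : ℝ} (hδ : 0 < δ) {t : ℝ} (ht : 0 < t) : 0 < t - T δ t := by
  rcases le_or_gt t δ with h | h
  · rw [T_zero hδ h, sub_zero]
    exact ht
  · have hm : MonotoneOn (fun t => t - T δ t) (Ici 0) := by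
      have hd : ∀ t, HasDerivAt (fun t => t - T δ t) (1 - Real.smoothTransition (t / δ - 1)) t :=
        fun t => (hasDerivAt_id t).fun_sub (T_hasDerivAt hδ t)
      refine monotoneOn_of_deriv_nonneg (convex_Ici 0)
        (fun x _ => (hd x).continuousAt.continuousWithinAt)
        (fun x _ => (hd x).differentiableAt.differentiableWithinAt) fun x _ => ?_
      rw [(hd x).deriv]
      linarith [Real.smoothTransition.le_one (x / δ - 1)]
    have h1 := hm (show (0 : ℝ) ≤ δ from hδ.le) (show (0 : ℝ) ≤ t from ht.le) h.le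
    simp only at h1
    rw [T_zero hδ le_rfl, sub_zero] at h1
    linarith

section
variable {V : Set ℂ} {φ u : ℂ → ℝ} (h : Pt V φ u) {δ : ℝ} (hδ : 0 < δ)
include h

theorem Pt.ev {z : ℂ} (hz : z ∈ V) : tr V u δ =ᶠ[𝓝 z] fun x => T δ (u x) := by
  filter_upwards [h.ho.mem_nhds hz] with x hx
  exact tr_in hx

include hδ

theorem Pt.tr_test : IsTest V (tr V u δ) := by
  obtain ⟨K, hK, hKU, hK2⟩ := h.lim δ hδ
  refine CI.isTest_of (Ω := V) hK hKU subset_rfl (fun z hz => ?_) (fun z hz => ?_)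
  · exact ((T_contDiff (ε := δ)).contDiffAt.comp z (h.sm z hz)).congr_of_eventuallyEq (h.ev hz)
  · by_cases hzU : z ∈ V
    · rw [tr_in hzU]
      refine T_zero hδ ?_
      by_contra h
      exact hz (hK2 z hzU (not_le.1 h).le)
    · exact tr_out hzU

theorem Pt.tr_nonneg (z : ℂ) : 0 ≤ tr V u δ z := by
  by_cases hz : z ∈ V
  · rw [tr_in hz]
    exact T_nonneg hδ _
  · rw [tr_out hz]

theorem Pt.nlap_tr {z : ℂ} (hz : z ∈ V) : nlap (tr V u δ) z =
    Real.smoothTransition (u z / δ - 1) * φ z -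
      deriv (fun t => Real.smoothTransition (t / δ - 1)) (u z) * ‖fderiv ℝ u z‖ ^ 2 := by
  rw [nlap_congr (h.ev hz), nlap_comp (h.sm z hz) (T_hasDerivAt hδ) dst_hasDerivAt, h.nl z hz]

theorem Pt.gr_test : IsTest V (gr V φ u δ) := test_sub h.test (isTest_nlap (h.tr_test hδ))

theorem Pt.gr_out {z : ℂ} (hz : z ∉ V) : gr V φ u δ z = 0 := test_zero (h.gr_test hδ) hz

theorem Pt.gr_nonneg (z : ℂ) : 0 ≤ gr V φ u δ z := by
  by_cases hz : z ∈ V
  · unfold gr
    rw [h.nlap_tr hδ hz]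
    have a1 := Real.smoothTransition.le_one (u z / δ - 1)
    have a2 := h.nn z
    have a3 := dst_nonneg hδ (u z)
    have a4 : 0 ≤ deriv (fun t => Real.smoothTransition (t / δ - 1)) (u z) *
      ‖fderiv ℝ u z‖ ^ 2 := mul_nonneg a3 (sq_nonneg _)
    nlinarith
  · rw [h.gr_out hδ hz]

theorem Pt.gr_zero {z : ℂ} (hz : z ∈ V) (h2 : 2 * δ < u z) : gr V φ u δ z = 0 := by
  unfold gr
  rw [h.nlap_tr hδ hz, dst_zero hδ h2]
  have h3 : Real.smoothTransition (u z / δ - 1) = 1 := by
    refine Real.smoothTransition.one_of_one_le ?_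
    rw [le_sub_iff_add_le, le_div_iff₀ hδ]
    linarith
  rw [h3]
  ring

end

/-! ### integration by parts against a smooth function without compact support -/

theorem swap {w L : ℂ → ℝ} (hw : ContDiff ℝ ∞ w) (hc : HasCompactSupport w)
    (hL : ContDiff ℝ ∞ L) : ∫ z, nlap w z * L z = ∫ z, w z * nlap L z := by
  have k : ∀ e : ℂ, ∫ z, fderiv ℝ (fun x => fderiv ℝ w x e) z e * L z =
      ∫ z, fderiv ℝ (fun x => fderiv ℝ L x e) z e * w z := by
    intro e
    have h1 := UK.parts hw hc hL e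
    have h2 := ibp hL hw hc e
    have e1 : ∫ z, UK.pe e w z * UK.pe e L z = ∫ z, fderiv ℝ L z e * fderiv ℝ w z e := by
      congr 1
      funext z
      rw [mul_comm]
      rfl
    rw [e1, h2, neg_neg] at h1
    exact h1
  have hcd : ∀ e : ℂ, HasCompactSupport (fun z => fderiv ℝ (fun x => fderiv ℝ w x e) z e) :=
    fun e => UK.cpt_pe (UK.cpt_pe hc e) e
  have i1 : ∀ e : ℂ, Integrable (fun z => fderiv ℝ (fun x => fderiv ℝ w x e) z e * L z) :=
    fun e => ((smooth_dir (smooth_dir hw e) e).continuous.mul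
      hL.continuous).integrable_of_hasCompactSupport (hcd e).mul_right
  have i2 : ∀ e : ℂ, Integrable (fun z => fderiv ℝ (fun x => fderiv ℝ L x e) z e * w z) :=
    fun e => ((smooth_dir (smooth_dir hL e) e).continuous.mul
      hw.continuous).integrable_of_hasCompactSupport hc.mul_left
  have e1 : ∫ z, nlap w z * L z = -((∫ z, fderiv ℝ (fun x => fderiv ℝ w x 1) z 1 * L z) +
      ∫ z, fderiv ℝ (fun x => fderiv ℝ w x Complex.I) z Complex.I * L z) := by
    rw [← integral_add (i1 1) (i1 _), ← integral_neg]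
    congr 1
    funext z
    unfold nlap
    ring
  have e2 : ∫ z, w z * nlap L z = -((∫ z, fderiv ℝ (fun x => fderiv ℝ L x 1) z 1 * w z) +
      ∫ z, fderiv ℝ (fun x => fderiv ℝ L x Complex.I) z Complex.I * w z) := by
    rw [← integral_add (i2 1) (i2 _), ← integral_neg]
    congr 1
    funext z
    unfold nlap
    ring
  rw [e1, e2, k, k]

theorem nlap_const (c : ℝ) (z : ℂ) : nlap (fun _ => c) z = 0 := by
  unfold nlap
  simp

theorem int_nlap {w : ℂ → ℝ} (hw : ContDiff ℝ ∞ w) (hc : HasCompactSupport w) :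
    ∫ z, nlap w z = 0 := by
  have := swap hw hc (contDiff_const (c := (1 : ℝ)))
  simpa [nlap_const] using this

section
variable {V : Set ℂ} {φ u : ℂ → ℝ} (h : Pt V φ u) {δ : ℝ} (hδ : 0 < δ)
include h hδ

theorem Pt.int_mul_cont {L : ℂ → ℝ} (hL : Continuous L) {f : ℂ → ℝ} (hf : IsTest V f) :
    Integrable (fun z => f z * L z) :=
  (hf.1.continuous.mul hL).integrable_of_hasCompactSupport hf.2.1.mul_right

/-- the charge `g_δ` against a smooth superharmonic function -/
theorem Pt.gr_super {L : ℂ → ℝ} (hL : ContDiff ℝ ∞ L) (hs : ∀ z, 0 ≤ nlap L z) :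
    ∫ z, gr V φ u δ z * L z ≤ ∫ z, φ z * L z := by
  have ht := h.tr_test hδ
  have h1 := swap ht.1 ht.2.1 hL
  have h2 : 0 ≤ ∫ z, tr V u δ z * nlap L z :=
    integral_nonneg fun z => mul_nonneg (h.tr_nonneg hδ z) (hs z)
  have e : ∫ z, gr V φ u δ z * L z = (∫ z, φ z * L z) - ∫ z, nlap (tr V u δ) z * L z := by
    rw [← integral_sub (h.int_mul_cont hδ hL.continuous h.test)
      (h.int_mul_cont hδ hL.continuous (isTest_nlap ht))]
    congr 1
    funext z
    unfold gr
    ring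
  rw [e, h1]
  linarith

theorem Pt.int_gr : ∫ z, gr V φ u δ z = ∫ z, φ z := by
  have ht := h.tr_test hδ
  unfold gr
  rw [integral_sub (test_int h.test) (test_int (isTest_nlap ht)), int_nlap ht.1 ht.2.1, sub_zero]

/-- the Green energy of `g_δ` -/
theorem Pt.gr_energy : greenEnergy V (gr V φ u δ) ≤ 2 * δ * ∫ z, φ z := by
  have hd : ∀ z ∈ V, ContDiffAt ℝ ∞ (fun x => T δ (u x)) z := fun z hz =>
    (T_contDiff (ε := δ)).contDiffAt.comp z (h.sm z hz)
  have hu : ∀ z ∈ V, ContDiffAt ℝ ∞ (fun x => u x - T δ (u x)) z := fun z hz =>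
    (h.sm z hz).sub (hd z hz)
  have hg := h.gr_test hδ
  have h1 : greenEnergy V (gr V φ u δ) = ∫ z, gr V φ u δ z * (u z - T δ (u z)) := by
    refine green_of_pot h.ho hu (fun z hz => T_sub_pos hδ (h.pos z hz)) (fun ε hε => ?_) hg
      (h.gr_nonneg hδ) (fun z hz => ?_)
    · obtain ⟨K, hK, hKV, hK2⟩ := h.lim ε hε
      refine ⟨K, hK, hKV, fun z hz hz2 => hK2 z hz ?_⟩
      linarith [T_nonneg hδ (u z)]
    · have h2 : ∀ {f : ℂ → ℝ}, ContDiffAt ℝ ∞ f z → ContDiffAt ℝ 2 f z := fun hf =>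
        hf.of_le (m := ((2 : ℕ∞) : WithTop ℕ∞)) (WithTop.coe_le_coe.2 le_top)
      have e1 : (fun x => u x - T δ (u x)) = fun x => (1 : ℝ) * (u x + -(1 : ℝ) *
          (T δ (u x) + 0)) := by
        funext x
        ring
      have h3 : ContDiffAt ℝ 2 (fun x => -(1 : ℝ) * (T δ (u x) + 0)) z :=
        contDiffAt_const.mul ((h2 (hd z hz)).add contDiffAt_const)
      rw [e1, nlap_lin (h2 (h.sm z hz)) h3, nlap_lin (h2 (hd z hz)) contDiffAt_const, nlap_const,
        h.nl z hz, ← nlap_congr (h.ev (δ := δ) hz)]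
      unfold gr
      ring
  rw [h1, ← h.int_gr hδ, ← integral_const_mul]
  by_cases hi : Integrable (fun z => gr V φ u δ z * (u z - T δ (u z)))
  · refine integral_mono hi ((test_int hg).const_mul _) fun z => ?_
    show gr V φ u δ z * (u z - T δ (u z)) ≤ 2 * δ * gr V φ u δ z
    have a1 := T_ge hδ (u z)
    have a2 := h.gr_nonneg hδ z
    nlinarith
  · rw [integral_undef hi]
    refine integral_nonneg fun z => mul_nonneg (by positivity) (h.gr_nonneg hδ z)

end

end Vale.Agent.P155.SW877
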