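import Vale.Agent.P155.SW877.Pot

/-!
# P155 (SW), block (6a): the analytic half of the zero level
-/

namespace Vale.Agent.P155.SW877

open MeasureTheory Set Filter Topology
open scoped ContDiff

open U Y877

theorem ss_le {U : ℕ → Set ℂ} (hm : ∀ i, MeasurableSet (U i))
    (hd : Pairwise (Function.onFun Disjoint U)) {g : ℂ → ℝ} (hg : Integrable g) :
    SqLe U g ((∫ z, |g z|) ^ 2) := by
  intro s
  set K := ∫ z, |g z| with hK
  have hi : Integrable (fun z => |g z|) := hg.abs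
  have h0 : ∀ A : Set ℂ, 0 ≤ ∫ z in A, |g z| := fun A => integral_nonneg fun z => abs_nonneg _
  have h1 : 0 ≤ K := integral_nonneg fun z => abs_nonneg _
  have h5 : ∑ i ∈ s, (∫ z in U i, |g z|) ≤ K := by
    have h6 : ∫ z in ⋃ i ∈ s, U i, |g z| = ∑ i ∈ s, ∫ z in U i, |g z| :=
      integral_biUnion_finset s (fun i _ => hm i)
        (fun i _ j _ hij => hd hij) (fun i _ => hi.integrableOn)
    rw [← h6]
    exact setIntegral_le_integral hi (Eventually.of_forall fun z => abs_nonneg _)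
  calc ∑ i ∈ s, (∫ z in U i, g z) ^ 2 ≤ ∑ i ∈ s, (∫ z in U i, |g z|) ^ 2 := by
        refine Finset.sum_le_sum fun i _ => ?_
        rw [sq_le_sq, abs_of_nonneg (h0 (U i))]
        exact abs_integral_le_integral_abs
    _ ≤ ∑ i ∈ s, K * (∫ z in U i, |g z|) := by
        refine Finset.sum_le_sum fun i hi => ?_
        rw [sq]
        refine mul_le_mul_of_nonneg_right ?_ (h0 _)
        exact (Finset.single_le_sum (f := fun i => ∫ z in U i, |g z|) (fun i _ => h0 _) hi).trans h5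
    _ = K * ∑ i ∈ s, (∫ z in U i, |g z|) := by rw [Finset.mul_sum]
    _ ≤ K ^ 2 := by
        rw [sq]
        exact mul_le_mul_of_nonneg_left h5 h1

theorem wt_eq (a e : ℝ) : SWR.wt a e =
    Complex.exp (Complex.I * ((Real.sqrt (Real.pi / 2) * a : ℝ) : ℂ)) *
      ((Real.exp (-e / 2) : ℝ) : ℂ) := by
  unfold SWR.wt
  rw [Complex.ofReal_exp, ← Complex.exp_add]
  congr 1
  push_cast
  ring

theorem norm_wt (a e : ℝ) : ‖SWR.wt a e‖ = Real.exp (-e / 2) := by
  rw [wt_eq, norm_mul, mul_comm Complex.I, Complex.norm_exp_ofReal_mul_I, one_mul,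
    Complex.norm_real, Real.norm_of_nonneg (Real.exp_pos _).le]

theorem norm_wt_le {a e : ℝ} (he : 0 ≤ e) : ‖SWR.wt a e‖ ≤ 1 := by
  rw [norm_wt]
  exact Real.exp_le_one_iff.2 (by linarith)

theorem wt_sub_one {a e : ℝ} (he : 0 ≤ e) :
    ‖SWR.wt a e - 1‖ ≤ Real.sqrt (Real.pi / 2) * |a| + e / 2 := by
  rw [wt_eq]
  set x : ℝ := Real.sqrt (Real.pi / 2) * a with hx
  have h1 : ‖Complex.exp (Complex.I * (x : ℂ)) - 1‖ ≤ ‖x‖ := Real.norm_exp_I_mul_ofReal_sub_one_le
  have h2 : ‖x‖ = Real.sqrt (Real.pi / 2) * |a| := by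
    rw [hx, norm_mul, Real.norm_of_nonneg (Real.sqrt_nonneg _), Real.norm_eq_abs]
  have h3 : Real.exp (-e / 2) ≤ 1 := Real.exp_le_one_iff.2 (by linarith)
  have h4 : 1 - e / 2 ≤ Real.exp (-e / 2) := by
    have := Real.add_one_le_exp (-e / 2)
    linarith
  have h5 : 0 < Real.exp (-e / 2) := Real.exp_pos _
  have e1 : Complex.exp (Complex.I * (x : ℂ)) * ((Real.exp (-e / 2) : ℝ) : ℂ) - 1 =
      (Complex.exp (Complex.I * (x : ℂ)) - 1) * ((Real.exp (-e / 2) : ℝ) : ℂ) +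
        (((Real.exp (-e / 2) - 1 : ℝ)) : ℂ) := by
    push_cast
    ring
  rw [e1]
  refine (norm_add_le _ _).trans ?_
  rw [norm_mul, Complex.norm_real, Complex.norm_real, Real.norm_of_nonneg h5.le,
    Real.norm_eq_abs (Real.exp (-e / 2) - 1), abs_of_nonpos (by linarith)]
  have h6 : ‖Complex.exp (Complex.I * (x : ℂ)) - 1‖ * Real.exp (-e / 2) ≤ ‖x‖ * 1 :=
    mul_le_mul h1 h3 h5.le (norm_nonneg _)
  rw [mul_one, h2] at h6
  linarith

theorem abs_moment {Z : Type*} [MeasurableSpace Z] (κ : Measure Z) [IsProbabilityMeasure κ]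
    {a : Z → ℝ} (ha : AEStronglyMeasurable a κ) (hi : Integrable (fun s => a s ^ 2) κ) :
    Integrable (fun s => |a s|) κ ∧ (∫ s, |a s| ∂κ) ^ 2 ≤ ∫ s, a s ^ 2 ∂κ := by
  have h1 : MemLp a 2 κ := (memLp_two_iff_integrable_sq ha).2 hi
  have h2 : Integrable (fun s => |a s|) κ := (h1.integrable (by norm_num)).abs
  refine ⟨h2, ?_⟩
  set m := ∫ s, |a s| ∂κ with hm
  have h3 : 0 ≤ ∫ s, (|a s| - m) ^ 2 ∂κ := integral_nonneg fun s => sq_nonneg _
  have h4 : ∫ s, (|a s| - m) ^ 2 ∂κ = (∫ s, a s ^ 2 ∂κ) - 2 * m * m + m ^ 2 := by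
    have e : ∀ s, (|a s| - m) ^ 2 = (a s ^ 2 - 2 * m * |a s|) + m ^ 2 := fun s => by
      rw [sub_sq, sq_abs]
      ring
    simp_rw [e]
    have h5 : Integrable (fun s => a s ^ 2 - 2 * m * |a s|) κ := hi.sub (h2.const_mul _)
    rw [integral_add h5 (integrable_const _), integral_sub hi (h2.const_mul _),
      integral_const_mul, ← hm, integral_const]
    simp
  rw [h4] at h3
  nlinarith

/-- **the zero level from the Schwinger-Dyson identity** -/
theorem zero_level {W : Set ℂ} (hW : IsOpen W) (hWb : Bornology.IsBounded W)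
    (hsc : ∀ z ∈ W, SimplyConnectedSpace (connectedComponentIn W z)) {Z : Type*}
    [MeasurableSpace Z] (κ : Measure Z) [IsProbabilityMeasure κ] (a e : (ℂ → ℝ) → Z → ℝ)
    (U : Z → ℕ → Set ℂ) (ham : ∀ χ, IsTest W χ → AEStronglyMeasurable (a χ) κ)
    (hem : ∀ χ, IsTest W χ → AEStronglyMeasurable (e χ) κ)
    (he : ∀ χ, IsTest W χ → ∀ᵐ s ∂κ, 0 ≤ e χ s ∧ e χ s ≤ greenEnergy W χ)
    (hU : ∀ᵐ s ∂κ, (∀ i, IsOpen (U s i)) ∧ Pairwise (Function.onFun Disjoint (U s)) ∧
      (∀ i, closure (U s i) ⊆ W) ∧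
      ∀ ε : ℝ, 0 < ε → {i | ε < Metric.diam (U s i)}.Finite)
    (hSm : ∀ χ, IsTest W χ → AEStronglyMeasurable (fun s => ∑' i, (∫ z in U s i, χ z) ^ 2) κ)
    (h2 : ∀ χ, IsTest W χ → Integrable (fun s => a χ s ^ 2) κ ∧
      ∫ s, a χ s ^ 2 ∂κ ≤ ∫ s, ∑' i, (∫ z in U s i, χ z) ^ 2 ∂κ)
    (hSD : ∀ χ ψ, IsTest W χ → IsTest W ψ →
      ∫ s, SWR.wt (a (fun w => χ w - UK.lapC ψ w) s) (e (fun w => χ w - UK.lapC ψ w) s) ∂κ =
        Complex.exp (-(∫ w, ψ w * χ w) - SWR.dir2 ψ / 2) * ∫ s, SWR.wt (a χ s) (e χ s) ∂κ) :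
    ∀ φ, IsTest W φ → ∫ s, SWR.wt (a φ s) (e φ s) ∂κ = Complex.exp (-greenEnergy W φ / 2) := by
  intro φ hφ
  obtain ⟨ψ, p1, ⟨C, p2⟩, p3, p4⟩ := pot_strong W hW hWb hsc φ hφ
  set g : ℕ → ℂ → ℝ := fun n z => φ z + UK.lapC (ψ n) z with hg
  have tg : ∀ n, IsTest W (g n) := by
    intro n
    rw [hg]
    simp only
    rw [add_lapC]
    exact test_sub hφ (isTest_nlap (p1 n))
  -- the second moments
  have m2 : Tendsto (fun n => ∫ s, ∑' i, (∫ z in U s i, g n z) ^ 2 ∂κ) atTop (𝓝 0) := by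
    have h := tendsto_integral_of_dominated_convergence (μ := κ)
      (F := fun n s => ∑' i, (∫ z in U s i, g n z) ^ 2) (f := fun _ => (0 : ℝ))
      (fun _ => C ^ 2) (fun n => hSm _ (tg n)) (integrable_const _) (fun n => ?_) ?_
    · simpa using h
    · filter_upwards [hU] with s hs
      rw [Real.norm_of_nonneg (tsum_nonneg fun i => sq_nonneg _)]
      have h1 : ∑' i, (∫ z in U s i, g n z) ^ 2 ≤ (∫ z, |g n z|) ^ 2 :=
        Real.tsum_le_of_sum_le (fun i => sq_nonneg _)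
          (ss_le (fun i => (hs.1 i).measurableSet) hs.2.1 (test_int (tg n)))
      have h3 : 0 ≤ ∫ z, |g n z| := integral_nonneg fun z => abs_nonneg _
      have h4 : ∫ z, |g n z| ≤ C := p2 n
      exact h1.trans (by gcongr)
    · filter_upwards [hU] with s hs
      exact (p4 (U s) hs.1 hs.2.1 hs.2.2.1 hs.2.2.2).2
  have m1 : Tendsto (fun n => ∫ s, |a (g n) s| ∂κ) atTop (𝓝 0) := by
    have h1 : ∀ n, (∫ s, |a (g n) s| ∂κ) ^ 2 ≤ ∫ s, ∑' i, (∫ z in U s i, g n z) ^ 2 ∂κ := by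
      intro n
      obtain ⟨h3, h4⟩ := h2 _ (tg n)
      exact (abs_moment κ (ham _ (tg n)) h3).2.trans h4
    have h3 : Tendsto (fun n => (∫ s, |a (g n) s| ∂κ) ^ 2) atTop (𝓝 0) :=
      squeeze_zero (fun n => sq_nonneg _) h1 m2
    have h4 := h3.sqrt
    rw [Real.sqrt_zero] at h4
    refine h4.congr fun n => ?_
    exact Real.sqrt_sq (integral_nonneg fun s => abs_nonneg _)
  -- the weights tend to one
  have w1 : Tendsto (fun n => ∫ s, SWR.wt (a (g n) s) (e (g n) s) ∂κ) atTop (𝓝 1) := by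
    have hwm : ∀ n, Integrable (fun s => SWR.wt (a (g n) s) (e (g n) s)) κ := by
      intro n
      have hc : Continuous (fun q : ℝ × ℝ => SWR.wt q.1 q.2) := by
        unfold SWR.wt
        fun_prop
      have hm : AEStronglyMeasurable (fun s => SWR.wt (a (g n) s) (e (g n) s)) κ :=
        hc.comp_aestronglyMeasurable ((ham _ (tg n)).prodMk (hem _ (tg n)))
      refine Integrable.of_bound hm 1 ?_
      filter_upwards [he _ (tg n)] with s hs
      exact norm_wt_le hs.1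
    have h1 : ∀ n, ‖(∫ s, SWR.wt (a (g n) s) (e (g n) s) ∂κ) - 1‖ ≤
        Real.sqrt (Real.pi / 2) * (∫ s, |a (g n) s| ∂κ) + greenEnergy W (g n) / 2 := by
      intro n
      have e1 : (∫ s, SWR.wt (a (g n) s) (e (g n) s) ∂κ) - 1 =
          ∫ s, (SWR.wt (a (g n) s) (e (g n) s) - 1) ∂κ := by
        rw [integral_sub (hwm n) (integrable_const _)]
        simp
      rw [e1]
      have h3 := (abs_moment κ (ham _ (tg n)) (h2 _ (tg n)).1).1
      have h4 : Integrable (fun s => Real.sqrt (Real.pi / 2) * |a (g n) s| +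
          greenEnergy W (g n) / 2) κ := (h3.const_mul _).add (integrable_const _)
      refine (norm_integral_le_of_norm_le h4 ?_).trans (le_of_eq ?_)
      · filter_upwards [he _ (tg n)] with s hs
        have := wt_sub_one (a := a (g n) s) hs.1
        linarith [hs.2]
      · rw [integral_add (h3.const_mul _) (integrable_const _), integral_const_mul]
        simp
    have h3 : Tendsto (fun n => Real.sqrt (Real.pi / 2) * (∫ s, |a (g n) s| ∂κ) +
        greenEnergy W (g n) / 2) atTop (𝓝 0) := by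
      have h4 := (m1.const_mul (Real.sqrt (Real.pi / 2))).add (p3.div_const 2)
      simpa using h4
    rw [tendsto_iff_norm_sub_tendsto_zero]
    exact squeeze_zero (fun n => norm_nonneg _) h1 h3
  -- the exponents
  have ex : ∀ n, ∫ s, SWR.wt (a φ s) (e φ s) ∂κ =
      Complex.exp ((-(greenEnergy W φ - greenEnergy W (g n)) / 2 : ℝ) : ℂ) *
        ∫ s, SWR.wt (a (g n) s) (e (g n) s) ∂κ := by
    intro n
    have h1 := hSD (g n) (ψ n) (tg n) (p1 n)
    have e1 : (fun w => g n w - UK.lapC (ψ n) w) = φ := by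
      funext w
      rw [hg]
      ring
    rw [e1] at h1
    rw [h1]
    congr 2
    have h3 := green_square hWb hφ (p1 n)
    have e2 : (fun z => φ z - nlap (ψ n) z) = g n := by rw [hg]; exact (add_lapC φ (ψ n)).symm
    rw [e2] at h3
    have h4 : ∫ w, ψ n w * g n w = (∫ z, φ z * ψ n z) - ∫ z, ‖fderiv ℝ (ψ n) z‖ ^ 2 := by
      rw [self_energy (p1 n).1 (p1 n).2.1, ← e2]
      have i1 : Integrable (fun z => φ z * ψ n z) :=
        (hφ.1.continuous.mul (p1 n).1.continuous).integrable_of_hasCompactSupport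
          hφ.2.1.mul_right
      rw [← integral_sub i1 (test_nlap_int (p1 n))]
      congr 1
      funext w
      ring
    have h5 : -(∫ w, ψ n w * g n w) - SWR.dir2 (ψ n) / 2 =
        -(greenEnergy W φ - greenEnergy W (g n)) / 2 := by
      rw [h4, h3]
      unfold SWR.dir2
      ring
    rw [← h5]
    push_cast
    ring
  have lim : Tendsto (fun n => Complex.exp ((-(greenEnergy W φ - greenEnergy W (g n)) / 2 : ℝ) : ℂ) *
      ∫ s, SWR.wt (a (g n) s) (e (g n) s) ∂κ) atTop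
      (𝓝 (Complex.exp ((-(greenEnergy W φ - 0) / 2 : ℝ) : ℂ) * 1)) := by
    refine Tendsto.mul ?_ w1
    have h1 : Tendsto (fun n => -(greenEnergy W φ - greenEnergy W (g n)) / 2) atTop
        (𝓝 (-(greenEnergy W φ - 0) / 2)) := ((p3.const_sub _).neg).div_const 2
    exact (Complex.continuous_exp.comp Complex.continuous_ofReal).continuousAt.tendsto.comp h1
  have h6 := tendsto_nhds_unique (tendsto_const_nhds.congr ex) lim
  rw [h6, mul_one, sub_zero]
  push_cast
  ring_nf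

end Vale.Agent.P155.SW877
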